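import Vale.Agent.P229.Detect.Test
import Vale.Agent.P229.PrepBase
import Vale.Agent.P229.Compose

/-
P229: the base part and the boundary part of the detection identity.
-/

namespace Vale.Agent.P229.Detect

open MeasureTheory Vale.Agent.P229
open scoped ContDiff

/-- The data available at the detection step. -/
structure Ctx (L : ℕ → ℝ) (N : ℕ) (C S θ δ η s lam D : ℝ) (Hb Hs : V6 → ℝ) (x q : P2 → ℝ) :
    Prop where
  hN : 40 ≤ N
  fam : HFam L δ s lam Hb Hs
  sol : Sol η δ (fun u => Hb u + Hs u) x q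
  hδ : δ ≤ 1 / 10
  hη : 0 < η
  hη1 : η ≤ 1
  hl : 1 ≤ lam
  hs : 0 < s
  hS : s * lam ^ N ≤ S
  hD : 5 ≤ D
  hθ : D * (1 / lam) ≤ θ
  hD1 : D * (1 / lam) ≤ 1
  low : ∀ z : P2, |z.1| ≤ θ → |z.2| ≤ θ → ∀ i ≤ N / 2 + 8,
    ‖iteratedFDeriv ℝ i x z‖ ≤ C ∧ ‖iteratedFDeriv ℝ i q z‖ ≤ C
  ener : ∀ i ≤ N + 3,
    (∫ z in Set.Icc (-5 / lam) (5 / lam) ×ˢ Set.Icc (-θ) θ,
      ‖iteratedFDeriv ℝ i x z‖ ^ 2 + ‖iteratedFDeriv ℝ i q z‖ ^ 2)
        ≤ C * (1 / lam + (s * lam ^ i / lam ^ 2) ^ 2) ∧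
    (∫ z in Set.Icc (-5 / lam) (-3 / lam) ×ˢ Set.Icc (-θ) θ,
      ‖iteratedFDeriv ℝ i x z‖ ^ 2 + ‖iteratedFDeriv ℝ i q z‖ ^ 2) ≤ C / lam ∧
    (∫ z in Set.Icc (3 / lam) (5 / lam) ×ˢ Set.Icc (-θ) θ,
      ‖iteratedFDeriv ℝ i x z‖ ^ 2 + ‖iteratedFDeriv ℝ i q z‖ ^ 2) ≤ C / lam

lemma natLe (n : ℕ) : (n : WithTop ℕ∞) ≤ ∞ := mod_cast le_top

lemma zero_mem_Box : (0 : P2) ∈ Box := by simp [Box]

lemma convex_Box : Convex ℝ Box := by
  have e : Box = Set.Ioo (-3 : ℝ) 3 ×ˢ Set.Ioo (-3 : ℝ) 3 := by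
    ext w; simp [Box, abs_lt]
  rw [e]; exact (convex_Ioo _ _).prod (convex_Ioo _ _)

lemma norm_single_le (i : Fin 6) : ‖(Pi.single i 1 : V6)‖ ≤ 1 := by
  refine (pi_norm_le_iff_of_nonneg zero_le_one).2 fun k => ?_
  by_cases h : k = i
  · subst h; simp
  · simp [h]

lemma abs_dy_iter_le {f : P2 → ℝ} (hf : ContDiff ℝ ∞ f) (n : ℕ) (z : P2) :
    |dy^[n] f z| ≤ ‖iteratedFDeriv ℝ n f z‖ := by
  induction n generalizing f with
  | zero => simp
  | succ n ih =>
    rw [Function.iterate_succ_apply]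
    exact (ih (smooth_dy hf)).trans (norm_dy_le hf n z)

lemma norm_lin2 {f g : P2 → ℝ} (hf : ContDiff ℝ ∞ f) (hg : ContDiff ℝ ∞ g) (a b : ℝ) (n : ℕ)
    (z : P2) : ‖iteratedFDeriv ℝ n (fun v => a * f v + b * g v) z‖
      ≤ |a| * ‖iteratedFDeriv ℝ n f z‖ + |b| * ‖iteratedFDeriv ℝ n g z‖ := by
  have hn := natLe n
  rw [show (fun v => a * f v + b * g v) = a • f + b • g from rfl,
    iteratedFDeriv_add_apply (f := a • f) (g := b • g) ((hf.const_smul a).of_le hn).contDiffAt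
      ((hg.const_smul b).of_le hn).contDiffAt,
    iteratedFDeriv_const_smul_apply (hf.of_le hn).contDiffAt,
    iteratedFDeriv_const_smul_apply (hg.of_le hn).contDiffAt]
  exact (norm_add_le _ _).trans (by rw [norm_smul, norm_smul, Real.norm_eq_abs, Real.norm_eq_abs])

lemma clm_high {E : Type*} [NormedAddCommGroup E] [NormedSpace ℝ E] (A : E →L[ℝ] ℝ) (m : ℕ)
    (u : E) : iteratedFDeriv ℝ (m + 2) (⇑A) u = 0 := by
  rw [← norm_eq_zero, ← norm_iteratedFDeriv_fderiv,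
    show fderiv ℝ (⇑A) = fun _ => A from funext fun v => A.fderiv,
    iteratedFDeriv_const_of_ne (by omega)]
  simp

section facts

variable {L : ℕ → ℝ} {N : ℕ} {C S θ δ η s lam D : ℝ} {Hb Hs : V6 → ℝ} {x q : P2 → ℝ}

lemma Ctx.w_pos (h : Ctx L N C S θ δ η s lam D Hb Hs x q) : 0 < 1 / lam := by
  have := h.hl; positivity

lemma Ctx.w_le (h : Ctx L N C S θ δ η s lam D Hb Hs x q) : 1 / lam ≤ 1 := by
  have := h.hl; rw [div_le_one (by linarith)]; exact h.hl

lemma Ctx.mem (h : Ctx L N C S θ δ η s lam D Hb Hs x q) {z : P2}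
    (hz : z ∈ rect (1 / lam) (D * (1 / lam))) :
    |z.1| ≤ θ ∧ |z.2| ≤ θ ∧ z ∈ Box ∧ ‖z‖ ≤ D * (1 / lam) := by
  obtain ⟨h1, h2⟩ := hz
  have e1 := abs_le.2 h1
  have e2 := abs_le.2 h2
  have := h.w_pos
  have := h.hθ
  have := h.hD1
  have := h.hD
  have h5 : 5 * (1 / lam) ≤ D * (1 / lam) := mul_le_mul_of_nonneg_right h.hD h.w_pos.le
  exact ⟨by linarith, by linarith, ⟨by linarith, by linarith⟩,
    by rw [Prod.norm_def, max_le_iff, Real.norm_eq_abs, Real.norm_eq_abs]; exact ⟨by linarith, by linarith⟩⟩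

lemma Ctx.rect_sub (h : Ctx L N C S θ δ η s lam D Hb Hs x q) :
    rect (1 / lam) (D * (1 / lam)) ⊆ Set.Icc (-5 / lam) (5 / lam) ×ˢ Set.Icc (-θ) θ := by
  refine Set.prod_mono ?_ (Set.Icc_subset_Icc (by linarith [h.hθ]) h.hθ)
  rw [show 5 * (1 / lam) = 5 / lam by ring, neg_div]

lemma Ctx.jet_lip (h : Ctx L N C S θ δ η s lam D Hb Hs x q) {z : P2} (hz : z ∈ Box) :
    ‖jet x q z - jet x q 0‖ ≤ 4 * ‖z‖ := by
  have hd := (smooth_jet h.sol.smx h.sol.smq).differentiable (by simp)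
  have := convex_Box.norm_image_sub_le_of_norm_fderiv_le (fun v _ => hd v)
    (fun v hv => by
      rw [← norm_iteratedFDeriv_one]
      exact jet_one h.sol (by linarith [h.hδ]) hv) zero_mem_Box hz
  simpa using this

lemma Ctx.dx_lip (h : Ctx L N C S θ δ η s lam D Hb Hs x q) {z : P2} (hz : z ∈ Box) :
    ‖fderiv ℝ x z - fderiv ℝ x 0‖ ≤ 2 * ‖z‖ := by
  have hd : Differentiable ℝ (fderiv ℝ x) :=
    (h.sol.smx.fderiv_right (m := ∞) le_rfl).differentiable (by simp)
  have := convex_Box.norm_image_sub_le_of_norm_fderiv_le (fun v _ => hd v)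
    (C := 2) (fun v hv => by
      rw [← norm_iteratedFDeriv_one, norm_iteratedFDeriv_fderiv, show (1 + 1 : ℕ) = 2 from rfl]
      refine ((near h.sol hv).2.2.2.2.2.2).trans ?_
      linarith [h.hδ]) zero_mem_Box hz
  simpa using this

lemma Ctx.taylor (h : Ctx L N C S θ δ η s lam D Hb Hs x q) {z : P2} (hz : z ∈ Box) :
    |x z - (dp x 0 * z.1 + dy x 0 * z.2)| ≤ 2 * ‖z‖ ^ 2 := by
  set A := fderiv ℝ x 0
  have hs : segment ℝ (0 : P2) z ⊆ Box := convex_Box.segment_subset zero_mem_Box hz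
  have hd := h.sol.smx.differentiable (by simp)
  have := (convex_segment (0 : P2) z).norm_image_sub_le_of_norm_hasFDerivWithin_le
    (f := fun v => x v - A v) (f' := fun v => fderiv ℝ x v - A) (C := 2 * ‖z‖)
    (fun v _ => ((hd v).hasFDerivAt.sub A.hasFDerivAt).hasFDerivWithinAt)
    (fun v hv => by
      refine (h.dx_lip (hs hv)).trans ?_
      have : ‖v‖ ≤ ‖z‖ := by
        obtain ⟨a, b, ha, hb, hab, rfl⟩ := hv
        simp only [smul_zero, zero_add, norm_smul, Real.norm_eq_abs, abs_of_nonneg hb]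
        exact mul_le_of_le_one_left (norm_nonneg _) (by linarith)
      linarith)
    (left_mem_segment _ _ _) (right_mem_segment _ _ _)
  have hx0 : x (0 : P2) = 0 := h.sol.x0
  have e : A z = dp x 0 * z.1 + dy x 0 * z.2 := by
    have : z = z.1 • ((1 : ℝ), (0 : ℝ)) + z.2 • ((0 : ℝ), (1 : ℝ)) := by ext <;> simp
    conv_lhs => rw [this]
    rw [map_add, map_smul, map_smul]
    simp [A, dp, dy, mul_comm]
  simp only [map_zero, hx0, sub_zero, Real.norm_eq_abs, e] at this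
  rw [pow_two]; linarith

lemma Ctx.coef (h : Ctx L N C S θ δ η s lam D Hb Hs x q) :
    |hDer Hb x q 4 0 + 1| ≤ δ ∧ |hDer Hb x q 5 0| ≤ δ := by
  have hu := jet_ball h.sol (by linarith [h.hδ]) zero_mem_Box
  have key : ∀ i, |hDer Hb x q i 0 - hDer H0 x q i 0| ≤ δ := fun i => by
    have := (fderiv ℝ Hb (jet x q 0) - fderiv ℝ H0 (jet x q 0)).le_opNorm (Pi.single i 1)
    exact this.trans ((mul_le_of_le_one_right (norm_nonneg _) (norm_single_le i)).trans
      (h.fam.close1 _ hu))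
  have hx0 : x (0 : P2) = 0 := h.sol.x0
  have k4 := key 4
  have k5 := key 5
  simp [hDer_H0, hx0] at k4 k5
  exact ⟨k4, k5⟩

lemma Ctx.hCnn (h : Ctx L N C S θ δ η s lam D Hb Hs x q) : 0 ≤ C := by
  have hθ : 0 ≤ θ := le_trans (by nlinarith [h.hD, h.w_pos]) h.hθ
  exact (norm_nonneg _).trans (h.low 0 (by simpa using hθ) (by simpa using hθ) 0 (by omega)).1

lemma Ctx.ener_low (h : Ctx L N C S θ δ η s lam D Hb Hs x q) {i : ℕ} (hi : i ≤ N + 2) :
    ∫ z in rect (1 / lam) (D * (1 / lam)),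
      (‖iteratedFDeriv ℝ i x z‖ ^ 2 + ‖iteratedFDeriv ℝ i q z‖ ^ 2) ≤ C * (1 + S ^ 2) := by
  have hl := h.hl
  refine (setIntegral_mono_set ?_ (Filter.Eventually.of_forall fun z => by positivity)
    (HasSubset.Subset.eventuallyLE h.rect_sub)).trans ((h.ener i (by omega)).1.trans ?_)
  · exact (((h.sol.smx.continuous_iteratedFDeriv (m := i) (natLe _)).norm.pow 2).add
      ((h.sol.smq.continuous_iteratedFDeriv (m := i) (natLe _)).norm.pow 2)).continuousOn
        |>.integrableOn_compact (isCompact_Icc.prod isCompact_Icc)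
  refine mul_le_mul_of_nonneg_left ?_ h.hCnn
  have h1 : s * lam ^ i / lam ^ 2 ≤ S := by
    rw [div_le_iff₀ (by positivity)]
    have := pow_le_pow_right₀ hl hi
    have := mul_le_mul_of_nonneg_left this h.hs.le
    have := mul_le_mul_of_nonneg_right h.hS (sq_nonneg lam)
    rw [mul_assoc, ← pow_add] at this
    linarith
  have h2 : 0 ≤ s * lam ^ i / lam ^ 2 := by have := h.hs; positivity
  have := h.w_le
  nlinarith

lemma Ctx.ener_top (h : Ctx L N C S θ δ η s lam D Hb Hs x q) :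
    (1 / lam) ^ 2 * ∫ z in rect (1 / lam) (D * (1 / lam)),
      (‖iteratedFDeriv ℝ (N + 3) x z‖ ^ 2 + ‖iteratedFDeriv ℝ (N + 3) q z‖ ^ 2)
      ≤ C * (1 + S ^ 2) := by
  have hl := h.hl
  have hint : IntegrableOn (fun z => ‖iteratedFDeriv ℝ (N + 3) x z‖ ^ 2
      + ‖iteratedFDeriv ℝ (N + 3) q z‖ ^ 2) (Set.Icc (-5 / lam) (5 / lam) ×ˢ Set.Icc (-θ) θ) :=
    (((h.sol.smx.continuous_iteratedFDeriv (m := N + 3) (natLe _)).norm.pow 2).add
      ((h.sol.smq.continuous_iteratedFDeriv (m := N + 3) (natLe _)).norm.pow 2)).continuousOn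
        |>.integrableOn_compact (isCompact_Icc.prod isCompact_Icc)
  refine (mul_le_mul_of_nonneg_left ((setIntegral_mono_set hint
    (Filter.Eventually.of_forall fun z => by positivity)
    (HasSubset.Subset.eventuallyLE h.rect_sub)).trans (h.ener _ le_rfl).1) (sq_nonneg _)).trans ?_
  rw [mul_left_comm]
  refine mul_le_mul_of_nonneg_left ?_ h.hCnn
  have e : s * lam ^ (N + 3) / lam ^ 2 = lam * (s * lam ^ N) := by
    field_simp; ring
  have e2 : (1 / lam) ^ 2 * (lam * (s * lam ^ N)) ^ 2 = (s * lam ^ N) ^ 2 := by field_simp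
  rw [e, mul_add, e2]
  have h0 : 0 ≤ s * lam ^ N := by have := h.hs; positivity
  have h1 : (1 / lam) ^ 2 * (1 / lam) ≤ 1 := by
    have := h.w_le
    have := h.w_pos
    exact mul_le_one₀ (pow_le_one₀ (by linarith) h.w_le) (by linarith) h.w_le
  nlinarith [h.hS]

/-- The flux identity. -/
lemma Ctx.identity (h : Ctx L N C S θ δ η s lam D Hb Hs x q) {om σ : ℝ} (hσ : 0 < σ)
    (hρ : σ + 5 * |om| * (1 / lam) ≤ D * (1 / lam)) (hom0 : om ≠ 0)
    (he : om⁻¹ + η * hDer Hb x q 4 0 * om + η * hDer Hb x q 5 0 = 0) (J : ℕ) :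
    η * ∫ z, ph J J om σ z * cut (z.1 / (1 / lam))
        * (Hb (jet x q z) + Hs (jet x q z) - hDer Hb x q 4 0 * dp x z - hDer Hb x q 5 0 * dy x z)
      = -∫ z, ph J J om σ z * deriv (cut : ℝ → ℝ) (z.1 / (1 / lam))
        * ((-om⁻¹ * q z + -(η * hDer Hb x q 4 0) * x z) / (1 / lam)) := by
  set w := 1 / lam
  have hw : 0 < w := h.w_pos
  set κ := hDer Hb x q 4 0
  set ν := hDer Hb x q 5 0
  set U : P2 → ℝ := fun z => -om⁻¹ * q z + -(η * κ) * x z
  have hx := h.sol.smx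
  have hq := h.sol.smq
  have hU : ContDiff ℝ ∞ U := (hq.const_smul (-om⁻¹)).add (hx.const_smul (-(η * κ)))
  have hd : ∀ z (v : P2), fderiv ℝ U z v = -om⁻¹ * fderiv ℝ q z v + -(η * κ) * fderiv ℝ x z v := by
    intro z v
    have e : HasFDerivAt U _ z := ((hq.differentiable (by simp) z).hasFDerivAt.const_mul (-om⁻¹)).add
      ((hx.differentiable (by simp) z).hasFDerivAt.const_mul (-(η * κ)))
    rw [e.fderiv]; simp
  set F : P2 → ℝ := fun z => ph J J om σ z * cut (z.1 / w) * U z with hFdef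
  have hF : ContDiff ℝ ∞ F := ((smooth_ph J J om σ).mul (smooth_hw smooth_cut w)).mul hU
  have hc : HasCompactSupport F := test_compact hσ hw (fun s hs => cut_zero hs) U
  have e : ∀ z, fderiv ℝ F z (1, -om)
      = ph J J om σ z * deriv (cut : ℝ → ℝ) (z.1 / w) * (U z / w)
        + ph J J om σ z * cut (z.1 / w) * (dp U z - om * dy U z) := by
    intro z
    have hv : ((1 : ℝ), -om) = ((1 : ℝ), (0 : ℝ)) + (-om) • ((0 : ℝ), (1 : ℝ)) := by ext <;> simp
    have d1 := ((smooth_ph J J om σ).differentiable (by simp) z)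
    have d2 := ((smooth_hw smooth_cut w).differentiable (by simp) z)
    have p := dp_mul (f := fun v => ph J J om σ v * cut (v.1 / w)) (g := U) (d1.mul d2)
      (hU.differentiable (by simp) z)
    have y := dy_mul (f := fun v => ph J J om σ v * cut (v.1 / w)) (g := U) (d1.mul d2)
      (hU.differentiable (by simp) z)
    rw [dp_mul d1 d2, dp_ph, dp_hw smooth_cut] at p
    rw [dy_mul d1 d2, dy_ph, dy_hw smooth_cut] at y
    rw [hv, map_add, map_smul, smul_eq_mul]
    change dp F z + -om * dy F z = _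
    rw [hFdef, p, y]
    ring
  have h0 := int_fderiv (hF.of_le (by simp)) hc (1, -om)
  simp only [e] at h0
  have i1 : Integrable fun z => ph J J om σ z * deriv (cut : ℝ → ℝ) (z.1 / w) * (U z / w) :=
    test_integrable hσ hw smooth_cut1.continuous (fun s hs => cut1_zero (Or.inl hs))
      (hU.continuous.div_const w)
  have i2 : Integrable fun z => ph J J om σ z * cut (z.1 / w) * (dp U z - om * dy U z) :=
    test_integrable hσ hw smooth_cut.continuous (fun s hs => cut_zero hs)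
      ((smooth_dp hU).continuous.sub (continuous_const.mul (smooth_dy hU).continuous))
  rw [integral_add i1 i2] at h0
  refine Eq.trans ?_ (by linarith : ∫ z, ph J J om σ z * cut (z.1 / w) * (dp U z - om * dy U z) = _)
  rw [← integral_const_mul]
  refine integral_congr_ae (Filter.Eventually.of_forall fun z => ?_)
  by_cases hz : z ∈ rect w (D * w)
  · have hb := (h.mem hz).2.2.1
    simp only [dp, dy, hd]
    have a1 := h.sol.eqp z hb
    have a2 := h.sol.eqy z hb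
    simp only [dp, dy] at a1 a2
    rw [a1, a2]
    linear_combination -(ph J J om σ z * cut (z.1 / w) * fderiv ℝ x z (0, 1)) * he
      - η * ph J J om σ z * cut (z.1 / w) * (Hb (jet x q z) + Hs (jet x q z)) * mul_inv_cancel₀ hom0
  · have := test_zero (m := J) (J := J) (h := (cut : ℝ → ℝ)) hσ hw hρ (fun s hs => cut_zero hs) hz
    simp [this]

end facts

/-- The square integrable majorant of the base part. -/
noncomputable def maj (N : ℕ) (lam : ℝ) (x q : P2 → ℝ) (z : P2) : ℝ :=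
  1 + (∑ i ∈ Finset.range (N + 3), (‖iteratedFDeriv ℝ i x z‖ + ‖iteratedFDeriv ℝ i q z‖))
    + 1 / lam * ‖iteratedFDeriv ℝ (N + 3) x z‖

/-- Pointwise bound for the top derivative of the base part. -/
theorem base_pointwise (L : ℕ → ℝ) (N : ℕ) (C S D : ℝ) :
    ∃ K, 0 < K ∧ ∀ (θ δ η s lam : ℝ) (Hb Hs : V6 → ℝ) (x q : P2 → ℝ),
      Ctx L N C S θ δ η s lam D Hb Hs x q → ∀ z ∈ rect (1 / lam) (D * (1 / lam)),
      |dy^[N + 2] (fun v => Hb (jet x q v) - hDer Hb x q 4 0 * dp x v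
          - hDer Hb x q 5 0 * dy x v) z| ≤ K * maj N lam x q z := by
  obtain ⟨LH, hLH⟩ : ∃ f : ℕ → ℝ, f = fun m => |L m| + 5 * |L 1| := ⟨_, rfl⟩
  have hLH0 : ∀ m, 0 ≤ LH m := fun m => by rw [hLH]; positivity
  obtain ⟨L', hL'⟩ : ∃ a : ℝ, a = (∑ m ∈ Finset.range (N + 6), LH m) + 1 + 3 * |C| := ⟨_, rfl⟩
  obtain ⟨Cc, hCc⟩ := comp (N + 2) L'
  obtain ⟨KS, hKS⟩ : ∃ a : ℝ, a = ∑ m ∈ Finset.range (N + 3), LH m := ⟨_, rfl⟩
  have hKS0 : 0 ≤ KS := hKS ▸ Finset.sum_nonneg fun m _ => hLH0 m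
  obtain ⟨K, hK⟩ : ∃ a : ℝ,
      a = 1 + 4 * |L 2| * |D| + |Cc| * (1 + KS + 2 * (N + 3)) + 2 * |L 1| := ⟨_, rfl⟩
  refine ⟨K, by rw [hK]; positivity, ?_⟩
  intro θ δ η s lam Hb Hs x q h
  set w := 1 / lam
  have hw : 0 < w := h.w_pos
  have hD0 : 0 ≤ D := by linarith [h.hD]
  have hx := h.sol.smx
  have hq := h.sol.smq
  have hW := smooth_jet hx hq
  set A := fderiv ℝ Hb (jet x q 0) with hA
  set Ht : V6 → ℝ := fun u => Hb u - A u with hHt
  have hHts : ContDiff ℝ ∞ Ht := h.fam.smb.sub A.contDiff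
  have hA1 : ‖A‖ ≤ |L 1| := by
    have := h.fam.bnd 1 (jet x q 0)
    rw [norm_iteratedFDeriv_one] at this
    exact this.trans (le_abs_self _)
  have hAs : ∀ i, |A (Pi.single i 1)| ≤ |L 1| := fun i =>
    ((A.le_opNorm _).trans (mul_le_of_le_one_right (norm_nonneg _) (norm_single_le i))).trans hA1
  set g : P2 → ℝ := fun z => Hb (jet x q z) - hDer Hb x q 4 0 * dp x z - hDer Hb x q 5 0 * dy x z
    with hg
  have hgs : ContDiff ℝ ∞ g :=
    ((h.fam.smb.comp hW).sub ((smooth_dp hx).const_smul (hDer Hb x q 4 0))).sub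
      ((smooth_dy hx).const_smul (hDer Hb x q 5 0))
  -- bounds for the centred nonlinearity
  have hHb : ∀ (m : ℕ) u, ‖u‖ ≤ 4 → ‖iteratedFDeriv ℝ m Ht u‖ ≤ LH m := by
    intro m u hu
    have hm : (m : WithTop ℕ∞) ≤ ∞ := by norm_cast; simp
    rw [hHt, show (fun u => Hb u - A u) = Hb - ⇑A from rfl,
      iteratedFDeriv_sub_apply (h.fam.smb.of_le hm).contDiffAt (A.contDiff.of_le hm).contDiffAt]
    refine (norm_sub_le _ _).trans ?_
    have b := (h.fam.bnd m u).trans (le_abs_self _)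
    have a : ‖iteratedFDeriv ℝ m (⇑A) u‖ ≤ 5 * |L 1| := by
      rcases m with _ | _ | m
      · rw [norm_iteratedFDeriv_zero]
        have := A.le_opNorm u
        nlinarith [norm_nonneg A]
      · rw [norm_iteratedFDeriv_one, A.fderiv]; linarith [norm_nonneg A]
      · rw [clm_high, norm_zero]; positivity
    rw [hLH]; dsimp only; linarith
  -- pointwise bound
  intro z hz
  obtain ⟨z1, z2, hzb, hzn⟩ := h.mem hz
  have hball := jet_ball h.sol (by linarith [h.hδ]) hzb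
  set nx : ℕ → ℝ := fun i => ‖iteratedFDeriv ℝ i x z‖
  set nq : ℕ → ℝ := fun i => ‖iteratedFDeriv ℝ i q z‖
  set G := maj N lam x q z with hG
  have hsum : ∀ i ≤ N + 2, 1 + (nx i + nq i) + w * nx (N + 3) ≤ G := by
    intro i hi
    have := Finset.single_le_sum (f := fun i => nx i + nq i) (fun i _ => by positivity)
      (Finset.mem_range.2 (show i < N + 3 by omega))
    simp only [hG, maj]
    linarith
  have hG1 : 1 ≤ G := by
    have := hsum 0 (by omega)
    have : 0 ≤ nx 0 + nq 0 + w * nx (N + 3) := by positivity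
    linarith
  set Lp : P2 →L[ℝ] ℝ := A (Pi.single 0 1) • ContinuousLinearMap.fst ℝ ℝ ℝ
    + A (Pi.single 1 1) • ContinuousLinearMap.snd ℝ ℝ ℝ with hLp
  have eg : g = (fun v => Ht (jet x q v)) + ((⇑Lp)
      + fun v => A (Pi.single 2 1) * x v + A (Pi.single 3 1) * q v) := by
    funext v
    simp only [hg, hHt, hLp, Pi.add_apply]
    rw [clm_six A (jet x q v)]
    simp [Fin.sum_univ_six, jet, hDer, hA]
    ring
  have n2 : ((N + 2 : ℕ) : WithTop ℕ∞) ≤ ∞ := natLe (N + 2)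
  have sHt : ContDiff ℝ ∞ fun v => Ht (jet x q v) := hHts.comp hW
  have sA : ContDiff ℝ ∞ fun v => A (Pi.single 2 1) * x v + A (Pi.single 3 1) * q v :=
    (contDiff_const.mul hx).add (contDiff_const.mul hq)
  refine (abs_dy_iter_le hgs _ z).trans ?_
  have sL : ContDiff ℝ ∞ ((⇑Lp) + fun v => A (Pi.single 2 1) * x v + A (Pi.single 3 1) * q v) :=
    Lp.contDiff.add sA
  rw [eg, iteratedFDeriv_add_apply
      (g := (⇑Lp) + fun v => A (Pi.single 2 1) * x v + A (Pi.single 3 1) * q v)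
      (sHt.of_le n2).contDiffAt (sL.of_le n2).contDiffAt,
    iteratedFDeriv_add_apply (Lp.contDiff.of_le n2).contDiffAt (sA.of_le n2).contDiffAt,
    clm_high Lp N z, zero_add]
  refine (norm_add_le _ _).trans ?_
  have hlin : ‖iteratedFDeriv ℝ (N + 2)
      (fun v => A (Pi.single 2 1) * x v + A (Pi.single 3 1) * q v) z‖ ≤ 2 * |L 1| * G := by
    refine (norm_lin2 hx hq _ _ _ z).trans ?_
    have := hsum (N + 2) le_rfl
    have : 0 ≤ w * nx (N + 3) := by positivity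
    have := mul_le_mul (hAs 2) (show nx (N + 2) ≤ G by
      have : 0 ≤ nq (N + 2) := norm_nonneg _
      linarith) (norm_nonneg _) (abs_nonneg _)
    have := mul_le_mul (hAs 3) (show nq (N + 2) ≤ G by
      have : 0 ≤ nx (N + 2) := norm_nonneg _
      linarith) (norm_nonneg _) (abs_nonneg _)
    linarith
  have hcomp := hCc Ht (jet x q) z hHts hW (fun m hm => (hHb m _ hball).trans (by
      have := Finset.single_le_sum (f := LH) (fun i _ => hLH0 i)
        (Finset.mem_range.2 (show m < N + 6 by omega))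
      rw [hL']; linarith [abs_nonneg C]))
    (fun i hi hi' => by
      refine (norm_jet_le hx hq hi z).trans ?_
      obtain ⟨a, b⟩ := h.low z z1 z2 i (by omega)
      obtain ⟨c, -⟩ := h.low z z1 z2 (i + 1) (by omega)
      have := le_abs_self C
      have : 0 ≤ ∑ m ∈ Finset.range (N + 6), LH m := Finset.sum_nonneg fun m _ => hLH0 m
      rw [hL']; linarith)
  have htopc : ‖fderiv ℝ Ht (jet x q z)‖ ≤ |L 2| * (4 * (D * w)) := by
    have hd : Differentiable ℝ (fderiv ℝ Hb) :=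
      (h.fam.smb.fderiv_right (m := ∞) le_rfl).differentiable (by simp)
    have := convex_univ.norm_image_sub_le_of_norm_fderiv_le (fun v _ => hd v)
      (fun v _ => by
        rw [← norm_iteratedFDeriv_one, norm_iteratedFDeriv_fderiv]
        exact (h.fam.bnd 2 v).trans (le_abs_self _))
      (Set.mem_univ (jet x q 0)) (Set.mem_univ (jet x q z))
    rw [hHt, fderiv_fun_sub (h.fam.smb.differentiable (by simp) _) A.differentiableAt, A.fderiv]
    refine this.trans (mul_le_mul_of_nonneg_left ((h.jet_lip hzb).trans ?_) (abs_nonneg _))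
    linarith
  have htop : ‖fderiv ℝ Ht (jet x q z)‖ * ‖iteratedFDeriv ℝ (N + 2) (jet x q) z‖
      ≤ 4 * |L 2| * |D| * G := by
    have hj := norm_jet_le hx hq (show 1 ≤ N + 2 by omega) z
    refine (mul_le_mul htopc hj (norm_nonneg _) (by positivity)).trans ?_
    have : w * (1 + nx (N + 2) + nq (N + 2) + nx (N + 3)) ≤ G := by
      have := hsum (N + 2) le_rfl
      have : w * (1 + nx (N + 2) + nq (N + 2)) ≤ 1 * (1 + nx (N + 2) + nq (N + 2)) :=
        mul_le_mul_of_nonneg_right h.w_le (by positivity)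
      linarith
    rw [abs_of_nonneg hD0]
    calc |L 2| * (4 * (D * w)) * (1 + nx (N + 2) + nq (N + 2) + nx (N + 3))
        = 4 * |L 2| * D * (w * (1 + nx (N + 2) + nq (N + 2) + nx (N + 3))) := by ring
      _ ≤ _ := mul_le_mul_of_nonneg_left this (by positivity)
  have hlow : Cc * (1 + (∑ m ∈ Finset.range (N + 2 + 1), ‖iteratedFDeriv ℝ m Ht (jet x q z)‖)
      + ∑ i ∈ Finset.Icc 1 (N + 2 - 1), ‖iteratedFDeriv ℝ i (jet x q) z‖)
      ≤ |Cc| * (1 + KS + 2 * (N + 3)) * G := by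
    have s1 : ∑ m ∈ Finset.range (N + 2 + 1), ‖iteratedFDeriv ℝ m Ht (jet x q z)‖ ≤ KS := by
      rw [hKS]; exact Finset.sum_le_sum fun m _ => hHb m _ hball
    have s2 : ∑ i ∈ Finset.Icc 1 (N + 2 - 1), ‖iteratedFDeriv ℝ i (jet x q) z‖
        ≤ ∑ _i ∈ Finset.Icc 1 (N + 2 - 1), 2 * G := by
      refine Finset.sum_le_sum fun i hi => ?_
      rw [Finset.mem_Icc] at hi
      refine (norm_jet_le hx hq hi.1 z).trans ?_
      have := hsum i (by omega)
      have := hsum (i + 1) (by omega)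
      have : 0 ≤ w * nx (N + 3) := by positivity
      have : 0 ≤ nq (i + 1) := norm_nonneg _
      linarith
    rw [Finset.sum_const, Nat.card_Icc, nsmul_eq_mul] at s2
    have s3 : ((N + 2 - 1 + 1 - 1 : ℕ) : ℝ) * (2 * G) ≤ ((N : ℝ) + 3) * (2 * G) :=
      mul_le_mul_of_nonneg_right (by
        have : N + 2 - 1 + 1 - 1 ≤ N + 3 := by omega
        exact_mod_cast this) (by linarith)
    refine (mul_le_mul_of_nonneg_right (le_abs_self Cc) (by positivity)).trans ?_
    rw [mul_assoc |Cc|]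
    refine mul_le_mul_of_nonneg_left ?_ (abs_nonneg _)
    nlinarith
  have hK' : 4 * |L 2| * |D| * G + |Cc| * (1 + KS + 2 * (↑N + 3)) * G + 2 * |L 1| * G ≤ K * G := by
    rw [hK]; nlinarith [hG1]
  linarith

/-- The majorant of the base part is square integrable, uniformly. -/
theorem maj_int (L : ℕ → ℝ) (N : ℕ) (C S D : ℝ) :
    ∃ I, 0 ≤ I ∧ ∀ (θ δ η s lam : ℝ) (Hb Hs : V6 → ℝ) (x q : P2 → ℝ),
      Ctx L N C S θ δ η s lam D Hb Hs x q → Continuous (maj N lam x q) ∧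
      volume.real (rect (1 / lam) (D * (1 / lam))) = 20 * D * (1 / lam) ^ 2 ∧
      ∫ z in rect (1 / lam) (D * (1 / lam)), maj N lam x q z ^ 2 ≤ I := by
  obtain ⟨I, hI⟩ : ∃ a : ℝ, a = 3 * (20 * |D| + 2 * (N + 3) * ((N + 3) * (|C| * (1 + S ^ 2)))
    + |C| * (1 + S ^ 2)) := ⟨_, rfl⟩
  refine ⟨I, by rw [hI]; positivity, ?_⟩
  intro θ δ η s lam Hb Hs x q h
  set w := 1 / lam
  have hw : 0 < w := h.w_pos
  have hD0 : 0 ≤ D := by linarith [h.hD]
  have hx := h.sol.smx
  have hq := h.sol.smq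
  have hc : ∀ (f : P2 → ℝ), ContDiff ℝ ∞ f → ∀ i : ℕ,
      Continuous fun z => ‖iteratedFDeriv ℝ i f z‖ := fun f hf i =>
    (hf.continuous_iteratedFDeriv (m := i) (natLe _)).norm
  have hmajc : Continuous (maj N lam x q) := by
    unfold maj
    exact (continuous_const.add (continuous_finset_sum _ fun i _ => (hc x hx i).add (hc q hq i))).add
      (continuous_const.mul (hc x hx _))
  have hR : IsCompact (rect w (D * w)) := isCompact_Icc.prod isCompact_Icc
  have hvol : volume.real (rect w (D * w)) = 20 * D * w ^ 2 := by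
    rw [rect, Measure.volume_eq_prod, measureReal_prod_prod,
      Real.volume_real_Icc_of_le (by linarith), Real.volume_real_Icc_of_le (by nlinarith)]
    ring
  refine ⟨hmajc, hvol, ?_⟩
  have hE : ∀ i, IntegrableOn (fun z => ‖iteratedFDeriv ℝ i x z‖ ^ 2
      + ‖iteratedFDeriv ℝ i q z‖ ^ 2) (rect w (D * w)) := fun i =>
    (((hc x hx i).pow 2).add ((hc q hq i).pow 2)).continuousOn.integrableOn_compact hR
  have iS : IntegrableOn (fun z => ∑ i ∈ Finset.range (N + 3), (‖iteratedFDeriv ℝ i x z‖ ^ 2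
      + ‖iteratedFDeriv ℝ i q z‖ ^ 2)) (rect w (D * w)) :=
    integrable_finset_sum _ fun i _ => hE i
  have i0 : IntegrableOn (fun _ : P2 => (1 : ℝ)) (rect w (D * w)) :=
    continuous_const.continuousOn.integrableOn_compact hR
  have hbound : ∀ z, maj N lam x q z ^ 2 ≤ 3 * (1 + 2 * ((N : ℝ) + 3)
      * ∑ i ∈ Finset.range (N + 3), (‖iteratedFDeriv ℝ i x z‖ ^ 2 + ‖iteratedFDeriv ℝ i q z‖ ^ 2))
      + 3 * (w ^ 2 * (‖iteratedFDeriv ℝ (N + 3) x z‖ ^ 2 + ‖iteratedFDeriv ℝ (N + 3) q z‖ ^ 2)) := by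
    intro z
    have hs := sq_sum_le_card_mul_sum_sq (s := Finset.range (N + 3))
      (f := fun i => ‖iteratedFDeriv ℝ i x z‖ + ‖iteratedFDeriv ℝ i q z‖)
    rw [Finset.card_range] at hs
    push_cast at hs
    have h2 : ∑ i ∈ Finset.range (N + 3), (‖iteratedFDeriv ℝ i x z‖ + ‖iteratedFDeriv ℝ i q z‖) ^ 2
        ≤ 2 * ∑ i ∈ Finset.range (N + 3), (‖iteratedFDeriv ℝ i x z‖ ^ 2 + ‖iteratedFDeriv ℝ i q z‖ ^ 2) := by
      rw [Finset.mul_sum]
      exact Finset.sum_le_sum fun i _ => add_sq_le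
    unfold maj
    set a := ∑ i ∈ Finset.range (N + 3), (‖iteratedFDeriv ℝ i x z‖ + ‖iteratedFDeriv ℝ i q z‖)
    have h3 : (1 + a + w * ‖iteratedFDeriv ℝ (N + 3) x z‖) ^ 2
        ≤ 3 * (1 + a ^ 2) + 3 * (w * ‖iteratedFDeriv ℝ (N + 3) x z‖) ^ 2 := by
      nlinarith [sq_nonneg (1 - a), sq_nonneg (1 - w * ‖iteratedFDeriv ℝ (N + 3) x z‖),
        sq_nonneg (a - w * ‖iteratedFDeriv ℝ (N + 3) x z‖)]
    have h4 : a ^ 2 ≤ ((N : ℝ) + 3) * (2 * ∑ i ∈ Finset.range (N + 3),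
        (‖iteratedFDeriv ℝ i x z‖ ^ 2 + ‖iteratedFDeriv ℝ i q z‖ ^ 2)) :=
      hs.trans (mul_le_mul_of_nonneg_left h2 (by positivity))
    have h5 : 0 ≤ w ^ 2 * ‖iteratedFDeriv ℝ (N + 3) q z‖ ^ 2 := by positivity
    rw [mul_pow] at h3
    linarith
  refine (setIntegral_mono_on ((hmajc.pow 2).continuousOn.integrableOn_compact hR)
    (((i0.add (iS.const_mul (2 * ((N : ℝ) + 3)))).const_mul 3).add
      (((hE (N + 3)).const_mul (w ^ 2)).const_mul 3)) hR.measurableSet fun z _ => hbound z).trans ?_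
  have j1 : IntegrableOn (fun z => 3 * (1 + 2 * ((N : ℝ) + 3) * ∑ i ∈ Finset.range (N + 3),
      (‖iteratedFDeriv ℝ i x z‖ ^ 2 + ‖iteratedFDeriv ℝ i q z‖ ^ 2))) (rect w (D * w)) :=
    (i0.add (iS.const_mul (2 * ((N : ℝ) + 3)))).const_mul 3
  have j2 : IntegrableOn (fun z => 3 * (w ^ 2 * (‖iteratedFDeriv ℝ (N + 3) x z‖ ^ 2
      + ‖iteratedFDeriv ℝ (N + 3) q z‖ ^ 2))) (rect w (D * w)) :=
    ((hE (N + 3)).const_mul (w ^ 2)).const_mul 3
  simp only [Pi.add_apply]
  rw [integral_add j1 j2, integral_const_mul, integral_const_mul, integral_const_mul,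
    integral_add i0 (iS.const_mul (2 * ((N : ℝ) + 3))), integral_const_mul, setIntegral_const, hvol,
    integral_finset_sum _ fun i _ => hE i, smul_eq_mul]
  have hsum : ∑ i ∈ Finset.range (N + 3), ∫ z in rect w (D * w), (‖iteratedFDeriv ℝ i x z‖ ^ 2
      + ‖iteratedFDeriv ℝ i q z‖ ^ 2) ≤ ((N : ℝ) + 3) * (|C| * (1 + S ^ 2)) := by
    refine (Finset.sum_le_card_nsmul _ _ (|C| * (1 + S ^ 2)) fun i hi => ?_).trans
      (by rw [Finset.card_range, nsmul_eq_mul]; push_cast; exact le_rfl)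
    rw [Finset.mem_range] at hi
    exact (h.ener_low (by omega)).trans (mul_le_mul_of_nonneg_right (le_abs_self _) (by positivity))
  have htop := h.ener_top
  have hC : C * (1 + S ^ 2) ≤ |C| * (1 + S ^ 2) :=
    mul_le_mul_of_nonneg_right (le_abs_self _) (by positivity)
  have hv : 20 * D * w ^ 2 ≤ 20 * |D| := by
    rw [abs_of_nonneg hD0]
    exact mul_le_of_le_one_right (by positivity) (pow_le_one₀ hw.le h.w_le)
  have hsum' := mul_le_mul_of_nonneg_left hsum (show 0 ≤ 2 * ((N : ℝ) + 3) by positivity)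
  rw [hI]
  linarith

/-- The base part of the identity is negligible. -/
theorem base_part (L : ℕ → ℝ) (N : ℕ) (C S D Λ : ℝ) (hΛ : 0 < Λ) :
    ∃ E, 0 ≤ E ∧ ∀ (θ δ η s lam om : ℝ) (Hb Hs : V6 → ℝ) (x q : P2 → ℝ),
      Ctx L N C S θ δ η s lam D Hb Hs x q → Λ + 5 * |om| ≤ D →
      |∫ z, ph (N + 2) (N + 2) om (Λ * (1 / lam)) z * cut (z.1 / (1 / lam))
          * (Hb (jet x q z) - hDer Hb x q 4 0 * dp x z - hDer Hb x q 5 0 * dy x z)|
        ≤ E * (1 / lam) ^ (N + 3) := by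
  obtain ⟨B0, hB00, hB0⟩ := th_bound (N + 2) 0
  obtain ⟨K, hKp, hK⟩ := base_pointwise L N C S D
  obtain ⟨I, hI0, hI⟩ := maj_int L N C S D
  refine ⟨Λ ^ (N + 2) * (B0 * K * (20 * |D| + I)), by positivity, ?_⟩
  intro θ δ η s lam om Hb Hs x q h hom
  set w := 1 / lam
  have hw : 0 < w := h.w_pos
  have hD0 : 0 ≤ D := by linarith [h.hD]
  have hx := h.sol.smx
  have hq := h.sol.smq
  have hσ : 0 < Λ * w := mul_pos hΛ hw
  have hρ : Λ * w + 5 * |om| * w ≤ D * w := by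
    rw [← add_mul]; exact mul_le_mul_of_nonneg_right hom hw.le
  have hR : IsCompact (rect w (D * w)) := isCompact_Icc.prod isCompact_Icc
  have hpt := hK θ δ η s lam Hb Hs x q h
  obtain ⟨hmajc, hvol, hint⟩ := hI θ δ η s lam Hb Hs x q h
  set g : P2 → ℝ := fun z => Hb (jet x q z) - hDer Hb x q 4 0 * dp x z - hDer Hb x q 5 0 * dy x z
  have hgs : ContDiff ℝ ∞ g :=
    ((h.fam.smb.comp (smooth_jet hx hq)).sub ((smooth_dp hx).const_smul (hDer Hb x q 4 0))).sub
      ((smooth_dy hx).const_smul (hDer Hb x q 5 0))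
  rw [show (fun z => ph (N + 2) (N + 2) om (Λ * w) z * cut (z.1 / w)
      * (Hb (jet x q z) - hDer Hb x q 4 0 * dp x z - hDer Hb x q 5 0 * dy x z))
      = fun z => ph (N + 2) (N + 2) om (Λ * w) z * cut (z.1 / w) * g z from rfl,
    ibp hσ hw smooth_cut (fun s hs => cut_zero hs) (N + 2) g hgs, abs_mul, abs_pow, abs_neg,
    abs_of_pos hσ]
  have hbd := test_bound_on (J := N + 2) (m := 0) (om := om) (σ := Λ * w) (w := w) (h := (cut : ℝ → ℝ))
    hR (fun z hz => test_zero hσ hw hρ (fun s hs => cut_zero hs) hz) hB0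
    (fun u => by rw [abs_of_nonneg cut.nonneg]; exact cut.le_one) (B1 := 1)
    (t := K * (1 / w)) (G := dy^[N + 2] g) (G' := fun z => K * maj N lam x q z)
  specialize hbd (by positivity) (continuous_const.mul hmajc) (fun z hz => hpt z hz)
  rw [hvol] at hbd
  simp only [mul_pow] at hbd
  rw [integral_const_mul] at hbd
  refine (mul_le_mul_of_nonneg_left hbd (by positivity)).trans ?_
  have e1 : K * (1 / w) * (20 * D * w ^ 2) = K * (20 * D) * w := by field_simp
  have e2 : (K * (1 / w))⁻¹ * (K ^ 2 * ∫ z in rect w (D * w), maj N lam x q z ^ 2)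
      = K * (∫ z in rect w (D * w), maj N lam x q z ^ 2) * w := by field_simp
  rw [e1, e2, mul_one, mul_pow, abs_of_nonneg hD0]
  calc Λ ^ (N + 2) * w ^ (N + 2) * (B0 * (K * (20 * D) * w
        + K * (∫ z in rect w (D * w), maj N lam x q z ^ 2) * w))
      = Λ ^ (N + 2) * (B0 * K * (20 * D + ∫ z in rect w (D * w), maj N lam x q z ^ 2))
          * w ^ (N + 3) := by ring
    _ ≤ _ := by gcongr

/-- The boundary part of the identity is negligible. -/
theorem bdry_part (L : ℕ → ℝ) (N : ℕ) (C S D Λ : ℝ) (hΛ : 0 < Λ) :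
    ∃ E, 0 ≤ E ∧ ∀ (θ δ η s lam om t : ℝ) (Hb Hs : V6 → ℝ) (x q : P2 → ℝ),
      Ctx L N C S θ δ η s lam D Hb Hs x q → Λ + 5 * |om| ≤ D → 1 / 2 ≤ om → 0 < t →
      |∫ z, ph (N + 2) (N + 2) om (Λ * (1 / lam)) z * deriv (cut : ℝ → ℝ) (z.1 / (1 / lam))
          * ((-om⁻¹ * q z + -(η * hDer Hb x q 4 0) * x z) / (1 / lam))|
        ≤ E * (1 / lam) ^ (N + 2) * (t * (1 / lam) + t⁻¹) := by
  obtain ⟨B0, hB00, hB0⟩ := th_bound (N + 2) 0
  obtain ⟨B1, hB10, hB1⟩ := cut1_bound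
  refine ⟨Λ ^ (N + 2) * B0 * B1 * (8 * |D| + 16 * |C|), by positivity, ?_⟩
  intro θ δ η s lam om t Hb Hs x q h hom hom2 ht
  set w := 1 / lam with hwdef
  have hw : 0 < w := h.w_pos
  have hl : 0 < lam := by linarith [h.hl]
  have hσ : 0 < Λ * w := mul_pos hΛ hw
  have hρ : Λ * w + 5 * |om| * w ≤ D * w := by
    rw [← add_mul]; exact mul_le_mul_of_nonneg_right hom hw.le
  have hD0 : 0 ≤ D := by linarith [h.hD]
  have hρ0 : 0 ≤ D * w := by positivity
  have hx := h.sol.smx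
  have hq := h.sol.smq
  set κ := hDer Hb x q 4 0
  set U : P2 → ℝ := fun z => -om⁻¹ * q z + -(η * κ) * x z
  have hU : ContDiff ℝ ∞ U := (hq.const_smul (-om⁻¹)).add (hx.const_smul (-(η * κ)))
  have hκ : |η * κ| ≤ 2 := by
    have := h.coef.1
    have := h.hδ
    rw [abs_le] at *
    have h1 := h.hη; have h2 := h.hη1
    constructor <;> nlinarith
  have hom' : |om⁻¹| ≤ 2 := by
    rw [abs_of_pos (by positivity), inv_le_iff_one_le_mul₀ (by linarith)]; linarith
  set G' : P2 → ℝ := fun z =>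
    2 * (‖iteratedFDeriv ℝ (N + 2) x z‖ + ‖iteratedFDeriv ℝ (N + 2) q z‖)
  have hG' : Continuous G' := continuous_const.mul
    (((hx.continuous_iteratedFDeriv (m := N + 2) (natLe _)).norm).add
      ((hq.continuous_iteratedFDeriv (m := N + 2) (natLe _)).norm))
  have hpt : ∀ z, |dy^[N + 2] U z| ≤ G' z := fun z => by
    refine ((abs_dy_iter_le hU _ z).trans (norm_lin2 hq hx _ _ _ z)).trans ?_
    rw [abs_neg, abs_neg]
    have := mul_le_mul_of_nonneg_right hom' (norm_nonneg (iteratedFDeriv ℝ (N + 2) q z))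
    have := mul_le_mul_of_nonneg_right hκ (norm_nonneg (iteratedFDeriv ℝ (N + 2) x z))
    simp only [G']; linarith
  set Sm : Set P2 := Set.Icc (-(5 * w)) (-(3 * w)) ×ˢ Set.Icc (-(D * w)) (D * w) with hSm
  set Sp : Set P2 := Set.Icc (3 * w) (5 * w) ×ˢ Set.Icc (-(D * w)) (D * w) with hSp
  have cm : IsCompact Sm := isCompact_Icc.prod isCompact_Icc
  have cp : IsCompact Sp := isCompact_Icc.prod isCompact_Icc
  have hdis : Disjoint Sm Sp := Set.disjoint_left.2 fun z h1 h2 => by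
    have := h1.1.2
    have := h2.1.1
    linarith
  have hsupp : ∀ z ∉ Sm ∪ Sp, ph (N + 2) 0 om (Λ * w) z * deriv (cut : ℝ → ℝ) (z.1 / w) = 0 := by
    intro z hz
    by_cases hr : z ∈ rect w (D * w)
    · by_cases h3 : |z.1 / w| < 3
      · rw [cut1_zero (Or.inr h3), mul_zero]
      exfalso
      rw [abs_div, abs_of_pos hw, div_lt_iff₀ hw, not_lt] at h3
      obtain ⟨h1, h2⟩ := hr
      rcases le_total 0 z.1 with hp | hp
      · exact hz (Or.inr ⟨⟨by rwa [abs_of_nonneg hp] at h3, h1.2⟩, h2⟩)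
      · rw [abs_of_nonpos hp] at h3
        exact hz (Or.inl ⟨⟨h1.1, by linarith⟩, h2⟩)
    · exact test_zero hσ hw hρ (fun s hs => cut1_zero (Or.inl hs)) hr
  have hbd := test_bound_on (J := N + 2) (m := 0) (om := om) (σ := Λ * w) (w := w)
    (h := deriv (cut : ℝ → ℝ)) (cm.union cp) hsupp hB0 hB1 ht hG' (fun z _ => hpt z)
  have hvol : volume.real (Sm ∪ Sp) ≤ 8 * |D| * w ^ 2 := by
    refine (measureReal_union_le _ _).trans ?_
    rw [hSm, hSp, Measure.volume_eq_prod, measureReal_prod_prod, measureReal_prod_prod,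
      Real.volume_real_Icc_of_le (by linarith), Real.volume_real_Icc_of_le (by linarith),
      Real.volume_real_Icc_of_le (by linarith), abs_of_nonneg hD0]
    ring_nf; exact le_rfl
  have hstrip : ∀ (K : Set P2), IsCompact K → ∀ B : Set P2, IsCompact B → K ⊆ B →
      (∫ z in B, ‖iteratedFDeriv ℝ (N + 2) x z‖ ^ 2 + ‖iteratedFDeriv ℝ (N + 2) q z‖ ^ 2) ≤ C / lam →
      ∫ z in K, G' z ^ 2 ≤ 8 * |C| * w := by
    intro K hK B hB hKB hE
    have hc2 : Continuous fun z => ‖iteratedFDeriv ℝ (N + 2) x z‖ ^ 2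
        + ‖iteratedFDeriv ℝ (N + 2) q z‖ ^ 2 :=
      ((hx.continuous_iteratedFDeriv (m := N + 2) (natLe _)).norm.pow 2).add
        ((hq.continuous_iteratedFDeriv (m := N + 2) (natLe _)).norm.pow 2)
    refine (setIntegral_mono_on ((hG'.pow 2).continuousOn.integrableOn_compact hK)
      ((continuous_const.mul hc2).continuousOn.integrableOn_compact hK) hK.measurableSet
      (g := fun z => 8 * (‖iteratedFDeriv ℝ (N + 2) x z‖ ^ 2 + ‖iteratedFDeriv ℝ (N + 2) q z‖ ^ 2))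
      fun z _ => ?_).trans ?_
    · simp only [G', Pi.pow_apply]
      have := add_sq_le (a := ‖iteratedFDeriv ℝ (N + 2) x z‖) (b := ‖iteratedFDeriv ℝ (N + 2) q z‖)
      rw [mul_pow]; linarith
    rw [integral_const_mul]
    have h1 := (setIntegral_mono_set (hc2.continuousOn.integrableOn_compact hB)
      (Filter.Eventually.of_forall fun z => by positivity)
      (HasSubset.Subset.eventuallyLE hKB)).trans hE
    have h2 : C / lam ≤ |C| * w := by
      rw [hwdef, div_eq_mul_one_div]; exact mul_le_mul_of_nonneg_right (le_abs_self _) hw.le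
    linarith
  have hθ := h.hθ
  have e5 : 5 * w = 5 / lam := by rw [hwdef]; ring
  have e3 : 3 * w = 3 / lam := by rw [hwdef]; ring
  have hint : ∫ z in Sm ∪ Sp, G' z ^ 2 ≤ 16 * |C| * w := by
    have i1 : IntegrableOn (fun z => G' z ^ 2) Sm := (hG'.pow 2).continuousOn.integrableOn_compact cm
    have i2 : IntegrableOn (fun z => G' z ^ 2) Sp := (hG'.pow 2).continuousOn.integrableOn_compact cp
    rw [setIntegral_union hdis cp.measurableSet i1 i2]
    have a := hstrip Sm cm _ (isCompact_Icc.prod isCompact_Icc) (Set.prod_mono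
      (Set.Icc_subset_Icc (by rw [e5, neg_div]) (by rw [e3, neg_div]))
      (Set.Icc_subset_Icc (by linarith) hθ)) (h.ener (N + 2) (by omega)).2.1
    have b := hstrip Sp cp _ (isCompact_Icc.prod isCompact_Icc) (Set.prod_mono
      (Set.Icc_subset_Icc (by rw [e3]) (by rw [e5]))
      (Set.Icc_subset_Icc (by linarith) hθ)) (h.ener (N + 2) (by omega)).2.2
    linarith
  have ediv : ∀ z, ph (N + 2) (N + 2) om (Λ * w) z * deriv (cut : ℝ → ℝ) (z.1 / w) * (U z / w)
      = 1 / w * (ph (N + 2) (N + 2) om (Λ * w) z * deriv (cut : ℝ → ℝ) (z.1 / w) * U z) := fun z => by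
    ring
  change |∫ z, ph (N + 2) (N + 2) om (Λ * w) z * deriv (cut : ℝ → ℝ) (z.1 / w) * (U z / w)| ≤ _
  simp only [ediv]
  rw [integral_const_mul, ibp hσ hw smooth_cut1 (fun s hs => cut1_zero (Or.inl hs)) (N + 2) U hU,
    abs_mul, abs_mul, abs_pow, abs_neg, abs_of_pos hσ, abs_of_pos (one_div_pos.2 hw)]
  refine (mul_le_mul_of_nonneg_left (mul_le_mul_of_nonneg_left hbd (by positivity)) (by positivity)).trans ?_
  have hb : t * volume.real (Sm ∪ Sp) + t⁻¹ * ∫ z in Sm ∪ Sp, G' z ^ 2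
      ≤ (8 * |D| + 16 * |C|) * (t * w + t⁻¹) * w := by
    have a1 := mul_le_mul_of_nonneg_left hvol ht.le
    have a2 := mul_le_mul_of_nonneg_left hint (inv_nonneg.2 ht.le)
    have a3 : 0 ≤ |D| * t⁻¹ * w := by positivity
    have a4 : 0 ≤ |C| * t * w ^ 2 := by positivity
    nlinarith
  refine (mul_le_mul_of_nonneg_left (mul_le_mul_of_nonneg_left
    (mul_le_mul_of_nonneg_left hb (by positivity)) (by positivity)) (by positivity)).trans (le_of_eq ?_)
  rw [mul_pow]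
  field_simp

end Vale.Agent.P229.Detect
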