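import Vale.Agent.P229.Detect.Base

/-
P229: the blob part of the detection identity is bounded below.
-/

namespace Vale.Agent.P229.Detect

open MeasureTheory Vale.Agent.P229
open scoped ContDiff

/-- The blob part of the identity is bounded below by the second moment of the blob. -/
theorem blob_part (L : ℕ → ℝ) (N : ℕ) (C S D Λ r : ℝ) (hΛ : 0 < Λ)
    (hr : ∀ t, |t| ≤ r → 1 / 2 ≤ th (N + 2) (N + 2 + 2) t) :
    ∃ E, 0 ≤ E ∧ ∀ (θ δ η s lam om : ℝ) (Hb Hs : V6 → ℝ) (x q : P2 → ℝ),
      Ctx L N C S θ δ η s lam D Hb Hs x q → Λ + 5 * |om| ≤ D → 1 / 2 ≤ om →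
      2 * om + 1 ≤ r * Λ →
      s * (1 / lam) ^ 2 * (1 / (300 * Λ ^ 2)) - E * s * (1 / lam) ^ 3
        ≤ |∫ z, ph (N + 2) (N + 2) om (Λ * (1 / lam)) z * cut (z.1 / (1 / lam))
            * Hs (jet x q z)| := by
  obtain ⟨B, hB0, hB⟩ := th_bound (N + 2) (N + 2)
  obtain ⟨BK, hBK0, hBK, hBKl⟩ := blobK_bound
  obtain ⟨Ce, hCe⟩ : ∃ a : ℝ,
      a = 1 + |L 0| + 8 * BK * D ^ 2 + 4 * BK * |D| + 8 * BK * |L 0| * |D| := ⟨_, rfl⟩
  have hCe0 : 0 < Ce := by rw [hCe]; positivity
  refine ⟨B * (40 * Ce * |D|), by positivity, ?_⟩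
  intro θ δ η s lam om Hb Hs x q h hom hom2 hΛr
  set w := 1 / lam with hwdef
  have hw : 0 < w := h.w_pos
  have hl : 0 < lam := by linarith [h.hl]
  have hσ : 0 < Λ * w := mul_pos hΛ hw
  have hρ : Λ * w + 5 * |om| * w ≤ D * w := by
    rw [← add_mul]; exact mul_le_mul_of_nonneg_right hom hw.le
  have hD0 : 0 ≤ D := by linarith [h.hD]
  have hδ : δ ≤ 1 / 4 := by linarith [h.hδ]
  have hW := smooth_jet h.sol.smx h.sol.smq
  obtain ⟨P, hPl, hP⟩ := h.fam.profile
  have hu0 := jet_ball h.sol hδ zero_mem_Box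
  obtain ⟨hP01, -⟩ := hP _ hu0
  obtain ⟨-, hxp0, hxy0, -⟩ := near h.sol zero_mem_Box
  set a0 := dp x 0
  set m0 := dy x 0
  set P0 := P (jet x q 0)
  set T := lin a0 m0
  set c : ℝ := s * Ce * w with hc
  have hc0 : 0 < c := by have := h.hs; positivity
  -- pointwise comparison with the linearised profile
  have hpt : ∀ z ∈ rect w (D * w),
      |Hs (jet x q z) - s * a0 * P0 * blobK (T (lam • z))| ≤ c := by
    intro z hz
    obtain ⟨-, -, hzb, hzn⟩ := h.mem hz
    have hu := jet_ball h.sol hδ hzb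
    obtain ⟨hP1, hPH⟩ := hP _ hu
    obtain ⟨-, hxp, -⟩ := near h.sol hzb
    have hjl : |P (jet x q z) - P0| ≤ 4 * |L 0| * D * w := by
      refine (hPl _ _ hu hu0).trans ?_
      refine (mul_le_mul_of_nonneg_right (le_abs_self _) (norm_nonneg _)).trans ?_
      refine (mul_le_mul_of_nonneg_left ((h.jet_lip hzb).trans
        (mul_le_mul_of_nonneg_left hzn (by norm_num))) (abs_nonneg _)).trans (le_of_eq ?_)
      ring
    have ha : |dp x z - a0| ≤ 2 * (D * w) := by
      have := (fderiv ℝ x z - fderiv ℝ x 0).le_opNorm ((1 : ℝ), (0 : ℝ))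
      rw [norm_e1, mul_one] at this
      exact this.trans ((h.dx_lip hzb).trans (by linarith))
    have hb : |blobK (lam * x z, lam * z.2) - blobK (T (lam • z))| ≤ 2 * BK * D ^ 2 * w := by
      refine (hBKl _ _).trans ?_
      have e : T (lam • z) = (lam * (a0 * z.1 + m0 * z.2), lam * z.2) := by
        simp [T, lin_apply, mul_add]
      rw [e, Prod.mk_sub_mk, Prod.norm_def, sub_self, norm_zero, max_eq_left (norm_nonneg _),
        Real.norm_eq_abs, ← mul_sub, abs_mul, abs_of_pos hl]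
      refine (mul_le_mul_of_nonneg_left (mul_le_mul_of_nonneg_left ((h.taylor hzb).trans
        (mul_le_mul_of_nonneg_left (pow_le_pow_left₀ (norm_nonneg _) hzn 2) zero_le_two))
        hl.le) hBK0).trans (le_of_eq ?_)
      rw [hwdef]; field_simp
    have hj : jet x q z 2 = x z ∧ jet x q z 1 = z.2 ∧ jet x q z 4 = dp x z := by simp [jet]
    rw [hj.1, hj.2.1, hj.2.2] at hPH
    set b1 := blobK (lam * x z, lam * z.2)
    set b0 := blobK (T (lam • z))
    have hxp2 : |dp x z| ≤ 2 := by have := abs_le.1 hxp; rw [abs_le]; constructor <;> linarith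
    have ha2 : |a0| ≤ 2 := by have := abs_le.1 hxp0; rw [abs_le]; constructor <;> linarith
    have hP2 : |P (jet x q z)| ≤ 2 := by have := abs_le.1 hP1; rw [abs_le]; constructor <;> linarith
    have key : |b1 * dp x z * P (jet x q z) - b0 * a0 * P0|
        ≤ 2 * BK * D ^ 2 * w * 2 * 2 + BK * (2 * (D * w)) * 2 + BK * 2 * (4 * |L 0| * D * w) := by
      have e : b1 * dp x z * P (jet x q z) - b0 * a0 * P0 = (b1 - b0) * dp x z * P (jet x q z)
          + b0 * (dp x z - a0) * P (jet x q z) + b0 * a0 * (P (jet x q z) - P0) := by ring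
      rw [e]
      refine (abs_add_three _ _ _).trans (add_le_add (add_le_add ?_ ?_) ?_)
      · rw [abs_mul, abs_mul]
        exact mul_le_mul (mul_le_mul hb hxp2 (abs_nonneg _) (by positivity)) hP2 (abs_nonneg _)
          (by positivity)
      · rw [abs_mul, abs_mul]
        exact mul_le_mul (mul_le_mul (hBK _) ha (abs_nonneg _) hBK0) hP2 (abs_nonneg _)
          (by positivity)
      · rw [abs_mul, abs_mul]
        exact mul_le_mul (mul_le_mul (hBK _) ha2 (abs_nonneg _) hBK0) hjl (abs_nonneg _)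
          (by positivity)
    have e2 : Hs (jet x q z) - s * a0 * P0 * b0 = (Hs (jet x q z) - s * b1 * dp x z * P (jet x q z))
        + s * (b1 * dp x z * P (jet x q z) - b0 * a0 * P0) := by ring
    rw [e2]
    refine (abs_add_le _ _).trans ?_
    rw [abs_mul, abs_of_pos h.hs]
    have h1 : L 0 * s / lam ≤ |L 0| * s * w := by
      rw [hwdef, div_eq_mul_one_div]
      exact mul_le_mul_of_nonneg_right (mul_le_mul_of_nonneg_right (le_abs_self _) h.hs.le) hw.le
    have h2 := mul_le_mul_of_nonneg_left key h.hs.le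
    have h3 : 0 ≤ s * w := mul_nonneg h.hs.le hw.le
    rw [hc, hCe, abs_of_nonneg hD0]
    linarith
  -- the main term
  have hcut : ∀ z : P2, cut (z.1 / w) * blobK (T (lam • z)) = blobK (T (lam • z)) := by
    intro z
    by_cases h0 : blobK (T (lam • z)) = 0
    · rw [h0, mul_zero]
    have hle : ‖T (lam • z)‖ ≤ 1 := not_lt.1 fun hlt => h0 (blobK_zero hlt)
    obtain ⟨h1, -⟩ := lin_small (hxp0.trans h.hδ) (hxy0.trans h.hδ) hle
    rw [cut_one, one_mul]
    rw [Prod.smul_fst, smul_eq_mul] at h1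
    rw [hwdef, div_div_eq_mul_div, div_one, mul_comm]
    linarith
  have hph : ∀ z : P2, ph (N + 2) (N + 2) om (Λ * w) z = ph (N + 2) (N + 2) om Λ (lam • z) := by
    intro z
    unfold ph
    rw [phase_apply, phase_apply]
    congr 1
    rw [hwdef, Prod.smul_fst, Prod.smul_snd, smul_eq_mul, smul_eq_mul]
    field_simp
  set K := ∫ Z, blobK (T Z) * ph (N + 2) (N + 2) om Λ Z
  have hK : 1 / (100 * Λ ^ 2) ≤ |K| :=
    blob_moment (N + 2) hr (hxp0.trans h.hδ) (hxy0.trans h.hδ) hom2 hΛ hΛr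
  have hmain : ∫ z, ph (N + 2) (N + 2) om (Λ * w) z * cut (z.1 / w)
      * (s * a0 * P0 * blobK (T (lam • z))) = s * a0 * P0 * (w ^ 2 * K) := by
    have e : ∀ z, ph (N + 2) (N + 2) om (Λ * w) z * cut (z.1 / w)
        * (s * a0 * P0 * blobK (T (lam • z)))
        = s * a0 * P0 * ((fun Z => blobK (T Z) * ph (N + 2) (N + 2) om Λ Z) (lam • z)) := by
      intro z
      rw [hph]
      calc _ = s * a0 * P0 * ph (N + 2) (N + 2) om Λ (lam • z)
            * (cut (z.1 / w) * blobK (T (lam • z))) := by ring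
        _ = _ := by rw [hcut]; ring
    simp only [e]
    rw [integral_const_mul, Measure.integral_comp_smul (volume : Measure P2)
      (fun Z => blobK (T Z) * ph (N + 2) (N + 2) om Λ Z) lam, Module.finrank_prod, Module.finrank_self,
      smul_eq_mul, abs_of_pos (by positivity)]
    rw [hwdef, one_div, inv_pow]
  have hR : IsCompact (rect w (D * w)) := isCompact_Icc.prod isCompact_Icc
  have hvol : volume.real (rect w (D * w)) = 20 * D * w ^ 2 := by
    rw [rect, Measure.volume_eq_prod, measureReal_prod_prod,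
      Real.volume_real_Icc_of_le (by linarith), Real.volume_real_Icc_of_le (by nlinarith)]
    ring
  have herr := test_bound_on (J := N + 2) (m := N + 2) (om := om) (σ := Λ * w) (w := w)
    (h := (cut : ℝ → ℝ)) hR (fun z hz => test_zero hσ hw hρ (fun s hs => cut_zero hs) hz) hB
    (B1 := 1) (fun u => by rw [abs_of_nonneg cut.nonneg]; exact cut.le_one) hc0
    (G := fun z => Hs (jet x q z) - s * a0 * P0 * blobK (T (lam • z))) (G' := fun _ => c)
    continuous_const hpt
  have i1 : Integrable fun z => ph (N + 2) (N + 2) om (Λ * w) z * cut (z.1 / w) * Hs (jet x q z) :=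
    test_integrable hσ hw smooth_cut.continuous (fun s hs => cut_zero hs)
      (h.fam.sms.comp hW).continuous
  have i2 : Integrable fun z => ph (N + 2) (N + 2) om (Λ * w) z * cut (z.1 / w)
      * (s * a0 * P0 * blobK (T (lam • z))) :=
    test_integrable hσ hw smooth_cut.continuous (fun s hs => cut_zero hs)
      (continuous_const.mul (smooth_blobK.continuous.comp (T.continuous.comp (continuous_const_smul lam))))
  simp only [mul_sub] at herr
  rw [integral_sub i1 i2, hmain, setIntegral_const, hvol, smul_eq_mul] at herr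
  have e3 : c⁻¹ * (20 * D * w ^ 2 * c ^ 2) = c * (20 * D * w ^ 2) := by field_simp
  rw [e3, mul_one, hc] at herr
  have hlow : s * w ^ 2 * (1 / (300 * Λ ^ 2)) ≤ |s * a0 * P0 * (w ^ 2 * K)| := by
    have ha : 9 / 10 ≤ a0 := by have := abs_le.1 hxp0; linarith [h.hδ]
    have hp : 1 / 2 ≤ P0 := by have := abs_le.1 hP01; linarith
    rw [abs_mul, abs_of_pos (by have := h.hs; positivity : 0 < s * a0 * P0), abs_mul,
      abs_of_pos (by positivity : 0 < w ^ 2)]
    have hap : 1 / 3 ≤ a0 * P0 := by nlinarith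
    calc s * w ^ 2 * (1 / (300 * Λ ^ 2)) = s * w ^ 2 * ((1 / 3) * (1 / (100 * Λ ^ 2))) := by ring
      _ ≤ s * w ^ 2 * ((a0 * P0) * |K|) := by
          have := h.hs
          gcongr
      _ = _ := by ring
  have h4 := abs_sub_abs_le_abs_sub (s * a0 * P0 * (w ^ 2 * K))
    (∫ z, ph (N + 2) (N + 2) om (Λ * w) z * cut (z.1 / w) * Hs (jet x q z))
  rw [abs_sub_comm] at h4
  rw [abs_of_nonneg hD0]
  linarith

end Vale.Agent.P229.Detect
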