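import Vale.Agent.P229.CoreDefs
import Vale.Agent.P229.Calc
import Vale.Agent.P229.Final.Template

/-
P229: the test functions of the detection step, their integrations by parts, and the
second moment of the blob against the test profile.
-/

namespace Vale.Agent.P229.Detect

open MeasureTheory Vale.Agent.P229
open scoped ContDiff

/-- The profile whose high derivative is tested against the equation. -/
noncomputable def psi (J : ℕ) (t : ℝ) : ℝ := bump1 t * t ^ (J + 2)

/-- Derivatives of the profile. -/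
noncomputable def th (J m : ℕ) : ℝ → ℝ := iteratedDeriv m (psi J)

/-- Cutoff in the first variable: one on `[-3, 3]`, zero outside `[-9/2, 9/2]`. -/
noncomputable def cut : ContDiffBump (0 : ℝ) := ⟨3, 9 / 2, by norm_num, by norm_num⟩

/-- The scaled phase. -/
noncomputable def phase (om σ : ℝ) : P2 →L[ℝ] ℝ :=
  σ⁻¹ • (ContinuousLinearMap.snd ℝ ℝ ℝ + om • ContinuousLinearMap.fst ℝ ℝ ℝ)

/-- A derivative of the profile at the phase. -/
noncomputable def ph (J m : ℕ) (om σ : ℝ) (z : P2) : ℝ := th J m (phase om σ z)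

/-- The rectangle carrying the test functions. -/
def rect (w ρ : ℝ) : Set P2 := Set.Icc (-(5 * w)) (5 * w) ×ˢ Set.Icc (-ρ) ρ

lemma phase_apply (om σ : ℝ) (z : P2) : phase om σ z = (z.2 + om * z.1) / σ := by
  simp [phase, div_eq_inv_mul]
  ring

lemma smooth_psi (J : ℕ) : ContDiff ℝ ∞ (psi J) := bump1.contDiff.mul (contDiff_id.pow _)

lemma smooth_th (J m : ℕ) : ContDiff ℝ ∞ (th J m) := by
  induction m with
  | zero => simpa [th] using smooth_psi J
  | succ m ih =>
    simp only [th, iteratedDeriv_succ] at ih ⊢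
    exact (contDiff_infty_iff_deriv.1 ih).2

lemma th_succ (J m : ℕ) : deriv (th J m) = th J (m + 1) := by simp [th, iteratedDeriv_succ]

lemma th_zero (J m : ℕ) {t : ℝ} (ht : 1 < |t|) : th J m t = 0 := by
  have h : psi J =ᶠ[nhds t] fun _ => (0 : ℝ) := by
    filter_upwards [(isOpen_lt continuous_const continuous_abs).mem_nhds ht] with u hu
    have : bump1 u = 0 := bump1.zero_of_le_dist (by
      rw [Real.dist_eq, sub_zero]; exact hu.le)
    simp [psi, this]
  rw [th, h.iteratedDeriv_eq]; simp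

lemma hasCompactSupport_th (J m : ℕ) : HasCompactSupport (th J m) :=
  HasCompactSupport.intro (K := Set.Icc (-1) 1) isCompact_Icc fun t ht =>
    th_zero J m (by
      by_contra h
      exact ht (abs_le.1 (not_lt.1 h)))

lemma th_bound (J m : ℕ) : ∃ B : ℝ, 0 ≤ B ∧ ∀ t, |th J m t| ≤ B := by
  obtain ⟨C, hC⟩ := (hasCompactSupport_th J m).exists_bound_of_continuous (smooth_th J m).continuous
  exact ⟨C, le_trans (norm_nonneg _) (hC 0), fun t => by simpa using hC t⟩

lemma th_top (J : ℕ) : th J (J + 2) 0 = ((J + 2).factorial : ℝ) := by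
  have h : psi J =ᶠ[nhds 0] fun t => t ^ (J + 2) := by
    filter_upwards [Metric.ball_mem_nhds (0 : ℝ) (show (0 : ℝ) < 1 / 2 by norm_num)] with u hu
    have : bump1 u = 1 := bump1.one_of_mem_closedBall (Metric.ball_subset_closedBall hu)
    simp [psi, this]
  rw [th, h.iteratedDeriv_eq, iteratedDeriv_eq_iterate, iter_deriv_pow]
  rw [Nat.sub_self, pow_zero, mul_one, ← Nat.descFactorial_self (J + 2),
    Nat.descFactorial_eq_prod_range, Nat.cast_prod]
  exact Finset.prod_congr rfl fun i hi => by rw [Nat.cast_sub (Finset.mem_range.1 hi).le]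

lemma th_top_near (J : ℕ) : ∃ r : ℝ, 0 < r ∧ ∀ t, |t| ≤ r → 1 / 2 ≤ th J (J + 2) t := by
  have hc := (smooth_th J (J + 2)).continuous.continuousAt (x := (0 : ℝ))
  have h1 : (1 / 2 : ℝ) < th J (J + 2) 0 := by
    rw [th_top]
    have : (1 : ℝ) ≤ ((J + 2).factorial : ℝ) := by exact_mod_cast Nat.factorial_pos _
    linarith
  obtain ⟨r, hr, h⟩ := Metric.eventually_nhds_iff.1 (hc.eventually_const_lt h1)
  exact ⟨r / 2, by linarith, fun t ht => (h (by rw [Real.dist_eq, sub_zero]; linarith)).le⟩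

lemma smooth_ph (J m : ℕ) (om σ : ℝ) : ContDiff ℝ ∞ (ph J m om σ) :=
  (smooth_th J m).comp (phase om σ).contDiff

lemma fderiv_ph (J m : ℕ) (om σ : ℝ) (z v : P2) :
    fderiv ℝ (ph J m om σ) z v = ph J (m + 1) om σ z * phase om σ v := by
  have h1 : HasDerivAt (th J m) (th J (m + 1) (phase om σ z)) (phase om σ z) := by
    rw [← th_succ]
    exact ((smooth_th J m).differentiable (by simp) _).hasDerivAt
  have h2 : HasFDerivAt (ph J m om σ) (th J (m + 1) (phase om σ z) • phase om σ) z :=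
    h1.comp_hasFDerivAt z ((phase om σ).hasFDerivAt)
  rw [h2.fderiv]; simp [ph]

lemma dy_ph (J m : ℕ) (om σ : ℝ) (z : P2) :
    dy (ph J m om σ) z = ph J (m + 1) om σ z / σ := by
  rw [dy, fderiv_ph, phase_apply]; simp [div_eq_mul_inv]

lemma dp_ph (J m : ℕ) (om σ : ℝ) (z : P2) :
    dp (ph J m om σ) z = ph J (m + 1) om σ z * (om / σ) := by
  rw [dp, fderiv_ph, phase_apply]; simp

lemma smooth_hw {h : ℝ → ℝ} (hh : ContDiff ℝ ∞ h) (w : ℝ) :
    ContDiff ℝ ∞ (fun z : P2 => h (z.1 / w)) := hh.comp (contDiff_fst.div_const w)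

lemma dy_hw {h : ℝ → ℝ} (hh : ContDiff ℝ ∞ h) (w : ℝ) (z : P2) :
    dy (fun v : P2 => h (v.1 / w)) z = 0 := by
  have h1 : HasFDerivAt (fun v : P2 => v.1 / w) (w⁻¹ • ContinuousLinearMap.fst ℝ ℝ ℝ) z := by
    simpa [div_eq_inv_mul] using ((hasFDerivAt_fst (p := z) (𝕜 := ℝ) (E := ℝ) (F := ℝ)).const_mul w⁻¹)
  have h2 : HasFDerivAt (fun v : P2 => h (v.1 / w)) _ z :=
    (hh.differentiable (by simp) _).hasDerivAt.comp_hasFDerivAt z h1
  rw [dy, h2.fderiv]
  simp

lemma dp_hw {h : ℝ → ℝ} (hh : ContDiff ℝ ∞ h) (w : ℝ) (z : P2) :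
    dp (fun v : P2 => h (v.1 / w)) z = deriv h (z.1 / w) / w := by
  have h1 : HasFDerivAt (fun v : P2 => v.1 / w) (w⁻¹ • ContinuousLinearMap.fst ℝ ℝ ℝ) z := by
    simpa [div_eq_inv_mul] using ((hasFDerivAt_fst (p := z) (𝕜 := ℝ) (E := ℝ) (F := ℝ)).const_mul w⁻¹)
  have h2 : HasFDerivAt (fun v : P2 => h (v.1 / w)) _ z :=
    (hh.differentiable (by simp) _).hasDerivAt.comp_hasFDerivAt z h1
  rw [dp, h2.fderiv]
  simp [div_eq_mul_inv]

lemma smooth_cut : ContDiff ℝ ∞ (cut : ℝ → ℝ) := cut.contDiff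

lemma smooth_cut1 : ContDiff ℝ ∞ (deriv (cut : ℝ → ℝ)) := (contDiff_infty_iff_deriv.1 smooth_cut).2

lemma cut_zero {s : ℝ} (hs : 5 < |s|) : cut s = 0 := by
  apply cut.zero_of_le_dist
  rw [Real.dist_eq, sub_zero]
  show (9 / 2 : ℝ) ≤ |s|
  linarith

lemma cut_one {s : ℝ} (hs : |s| ≤ 3) : cut s = 1 := by
  apply cut.one_of_mem_closedBall
  rw [Metric.mem_closedBall, Real.dist_eq, sub_zero]
  exact hs

lemma cut1_zero {s : ℝ} (hs : 5 < |s| ∨ |s| < 3) : deriv (cut : ℝ → ℝ) s = 0 := by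
  rcases hs with hs | hs
  · have h : (cut : ℝ → ℝ) =ᶠ[nhds s] fun _ => (0 : ℝ) := by
      filter_upwards [(isOpen_lt continuous_const continuous_abs).mem_nhds hs] with u hu
      exact cut_zero hu
    rw [h.deriv_eq, deriv_const]
  · have h : (cut : ℝ → ℝ) =ᶠ[nhds s] fun _ => (1 : ℝ) := by
      filter_upwards [(isOpen_lt continuous_abs continuous_const).mem_nhds hs] with u hu
      exact cut_one hu.le
    rw [h.deriv_eq, deriv_const]

lemma cut1_bound : ∃ B : ℝ, 0 ≤ B ∧ ∀ s, |deriv (cut : ℝ → ℝ) s| ≤ B := by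
  have hc : HasCompactSupport (deriv (cut : ℝ → ℝ)) :=
    HasCompactSupport.intro (K := Set.Icc (-5) 5) isCompact_Icc fun s hs =>
      cut1_zero (Or.inl (by by_contra h; exact hs (abs_le.1 (not_lt.1 h))))
  obtain ⟨C, hC⟩ := hc.exists_bound_of_continuous smooth_cut1.continuous
  exact ⟨C, le_trans (norm_nonneg _) (hC 0), fun t => by simpa using hC t⟩

section support

variable {J m : ℕ} {om σ w ρ : ℝ} {h : ℝ → ℝ}

lemma test_zero (hσ : 0 < σ) (hw : 0 < w) (hρ : σ + 5 * |om| * w ≤ ρ)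
    (hh0 : ∀ s, 5 < |s| → h s = 0) {z : P2} (hz : z ∉ rect w ρ) :
    ph J m om σ z * h (z.1 / w) = 0 := by
  by_cases h1 : 5 < |z.1 / w|
  · rw [hh0 _ h1, mul_zero]
  by_cases h2 : 1 < |phase om σ z|
  · rw [ph, th_zero J m h2, zero_mul]
  exfalso
  rw [not_lt, abs_div, abs_of_pos hw, div_le_iff₀ hw] at h1
  rw [not_lt, phase_apply, abs_div, abs_of_pos hσ, div_le_iff₀ hσ, one_mul] at h2
  have h3 : |om * z.1| ≤ |om| * (5 * w) := by
    rw [abs_mul]; exact mul_le_mul_of_nonneg_left h1 (abs_nonneg om)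
  have h4 : |z.2| ≤ ρ := by
    have := abs_sub_le (z.2 + om * z.1) (om * z.1) 0
    have h5 : |z.2| ≤ |z.2 + om * z.1| + |om * z.1| := by
      simpa using abs_sub (z.2 + om * z.1) (om * z.1)
    nlinarith
  exact hz ⟨abs_le.1 h1, abs_le.1 h4⟩

lemma test_compact (hσ : 0 < σ) (hw : 0 < w) (hh0 : ∀ s, 5 < |s| → h s = 0) (g : P2 → ℝ) :
    HasCompactSupport (fun z => ph J m om σ z * h (z.1 / w) * g z) :=
  HasCompactSupport.intro (K := rect w (σ + 5 * |om| * w)) (isCompact_Icc.prod isCompact_Icc)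
    fun z hz => by rw [test_zero hσ hw le_rfl hh0 hz, zero_mul]

lemma test_integrable (hσ : 0 < σ) (hw : 0 < w) (hh : Continuous h)
    (hh0 : ∀ s, 5 < |s| → h s = 0) {g : P2 → ℝ} (hg : Continuous g) :
    Integrable (fun z => ph J m om σ z * h (z.1 / w) * g z) :=
  (((smooth_ph J m om σ).continuous.mul (hh.comp (continuous_fst.div_const w))).mul hg)
    |>.integrable_of_hasCompactSupport (test_compact hσ hw hh0 g)

/-- One integration by parts in the second variable. -/
lemma ibp_one (hσ : 0 < σ) (hw : 0 < w) (hh : ContDiff ℝ ∞ h) (hh0 : ∀ s, 5 < |s| → h s = 0)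
    {g : P2 → ℝ} (hg : ContDiff ℝ ∞ g) :
    ∫ z, ph J (m + 1) om σ z * h (z.1 / w) * g z
      = -σ * ∫ z, ph J m om σ z * h (z.1 / w) * dy g z := by
  have hF : ContDiff ℝ ∞ (fun z => ph J m om σ z * h (z.1 / w) * g z) :=
    ((smooth_ph J m om σ).mul (smooth_hw hh w)).mul hg
  have h0 := int_dy (hF.of_le (by simp)) (test_compact hσ hw hh0 g)
  have e : ∀ z, dy (fun z => ph J m om σ z * h (z.1 / w) * g z) z
      = σ⁻¹ * (ph J (m + 1) om σ z * h (z.1 / w) * g z) + ph J m om σ z * h (z.1 / w) * dy g z := by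
    intro z
    rw [dy_mul (((smooth_ph J m om σ).mul (smooth_hw hh w)).differentiable (by simp) z)
      (hg.differentiable (by simp) z),
      dy_mul ((smooth_ph J m om σ).differentiable (by simp) z)
      ((smooth_hw hh w).differentiable (by simp) z), dy_ph, dy_hw hh]
    ring
  simp only [e] at h0
  rw [integral_add ((test_integrable hσ hw hh.continuous hh0 hg.continuous).const_mul _)
    (test_integrable hσ hw hh.continuous hh0 (smooth_dy hg).continuous), integral_const_mul] at h0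
  have := congrArg (fun t => σ * t) h0
  simp only [mul_add, ← mul_assoc, mul_inv_cancel₀ hσ.ne', one_mul, mul_zero] at this
  linarith

lemma smooth_dy_iter {g : P2 → ℝ} (hg : ContDiff ℝ ∞ g) : ∀ k : ℕ, ContDiff ℝ ∞ (dy^[k] g)
  | 0 => hg
  | k + 1 => by rw [Function.iterate_succ_apply']; exact smooth_dy (smooth_dy_iter hg k)

/-- Repeated integration by parts in the second variable. -/
lemma ibp (hσ : 0 < σ) (hw : 0 < w) (hh : ContDiff ℝ ∞ h) (hh0 : ∀ s, 5 < |s| → h s = 0) :
    ∀ (k : ℕ) (g : P2 → ℝ), ContDiff ℝ ∞ g →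
      ∫ z, ph J k om σ z * h (z.1 / w) * g z
        = (-σ) ^ k * ∫ z, ph J 0 om σ z * h (z.1 / w) * (dy^[k] g) z
  | 0, g, _ => by simp
  | k + 1, g, hg => by
    rw [ibp_one hσ hw hh hh0 hg, ibp hσ hw hh hh0 k (dy g) (smooth_dy hg),
      Function.iterate_succ_apply, pow_succ]
    ring

/-- A test integral is bounded by a square integral over a compact set carrying it. -/
lemma test_bound_on {K : Set P2} (hK : IsCompact K)
    (hsupp : ∀ z ∉ K, ph J m om σ z * h (z.1 / w) = 0) {B0 B1 t : ℝ}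
    (hB0 : ∀ u, |th J m u| ≤ B0) (hB1 : ∀ u, |h u| ≤ B1) (ht : 0 < t) {G G' : P2 → ℝ}
    (hG' : Continuous G') (hGG : ∀ z ∈ K, |G z| ≤ G' z) :
    |∫ z, ph J m om σ z * h (z.1 / w) * G z|
      ≤ B0 * B1 * (t * volume.real K + t⁻¹ * ∫ z in K, G' z ^ 2) := by
  have hB : 0 ≤ B0 * B1 := mul_nonneg ((abs_nonneg _).trans (hB0 0)) ((abs_nonneg _).trans (hB1 0))
  have hi : Integrable (K.indicator fun z => B0 * B1 * G' z) :=
    ((continuous_const.mul hG').continuousOn.integrableOn_compact hK).integrable_indicator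
      hK.measurableSet
  have h1 : |∫ z, ph J m om σ z * h (z.1 / w) * G z| ≤ ∫ z in K, B0 * B1 * G' z := by
    rw [← Real.norm_eq_abs, ← integral_indicator hK.measurableSet]
    refine norm_integral_le_of_norm_le hi (Filter.Eventually.of_forall fun z => ?_)
    by_cases hz : z ∈ K
    · rw [Set.indicator_of_mem hz, Real.norm_eq_abs, abs_mul, abs_mul]
      exact mul_le_mul (mul_le_mul (hB0 _) (hB1 _) (abs_nonneg _) ((abs_nonneg _).trans (hB0 0)))
          (hGG z hz) (abs_nonneg _) hB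
    · rw [Set.indicator_of_notMem hz, hsupp z hz, zero_mul, norm_zero]
  refine h1.trans ?_
  rw [integral_const_mul]
  refine mul_le_mul_of_nonneg_left ?_ hB
  have i2 : IntegrableOn (fun z => t⁻¹ * G' z ^ 2) K :=
    (continuous_const.mul (hG'.pow 2)).continuousOn.integrableOn_compact hK
  have i1 : IntegrableOn (fun _ : P2 => t) K :=
    continuous_const.continuousOn.integrableOn_compact hK
  have hpt : ∀ z, G' z ≤ t + t⁻¹ * G' z ^ 2 := fun z => by
    have e : t + t⁻¹ * G' z ^ 2 - G' z = t⁻¹ * ((G' z - t / 2) ^ 2 + 3 / 4 * t ^ 2) := by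
      field_simp; ring
    have : 0 ≤ t⁻¹ * ((G' z - t / 2) ^ 2 + 3 / 4 * t ^ 2) := by positivity
    linarith
  refine (setIntegral_mono_on (hG'.continuousOn.integrableOn_compact hK) (i1.add i2) hK.measurableSet
    fun z _ => hpt z).trans (le_of_eq ?_)
  simp only [Pi.add_apply]
  rw [integral_add i1 i2, integral_const_mul, setIntegral_const, smul_eq_mul, mul_comm (volume.real K)]

end support

section blob

lemma smooth_blobK : ContDiff ℝ ∞ blobK := by
  unfold blobK
  exact ((smooth_dp (smooth_dp Final.smooth_blob)).add (smooth_dy (smooth_dy Final.smooth_blob))).neg.div_const 2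

lemma blobK_zero {z : P2} (h : 1 < ‖z‖) : blobK z = 0 := by
  have h0 : ∀ᶠ u in nhds z, blob u = 0 := by
    filter_upwards [(isOpen_lt continuous_const continuous_norm).mem_nhds h] with u hu
    exact Final.blob_zero hu.le
  have key : ∀ (g : P2 → ℝ) (v : P2), (∀ᶠ u in nhds z, g u = 0) →
      ∀ᶠ u in nhds z, fderiv ℝ g u v = 0 := by
    intro g v hg
    filter_upwards [hg.eventually_nhds] with u hu
    have : g =ᶠ[nhds u] fun _ => (0 : ℝ) := hu
    rw [this.fderiv_eq]; simp
  have e1 : dp (dp blob) z = 0 := (key _ (1, 0) (key _ (1, 0) h0)).self_of_nhds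
  have e2 : dy (dy blob) z = 0 := (key _ (0, 1) (key _ (0, 1) h0)).self_of_nhds
  simp [blobK, e1, e2]

lemma blobK_bound : ∃ B : ℝ, 0 ≤ B ∧ (∀ z, |blobK z| ≤ B) ∧
    ∀ u v : P2, |blobK u - blobK v| ≤ B * ‖u - v‖ := by
  have hc : HasCompactSupport blobK :=
    HasCompactSupport.intro (isCompact_closedBall (0 : P2) 1) fun z hz =>
      blobK_zero (by simpa using hz)
  obtain ⟨C, hC⟩ := hc.exists_bound_of_continuous smooth_blobK.continuous
  obtain ⟨K, hK⟩ := ContDiff.lipschitzWith_of_hasCompactSupport hc smooth_blobK (by simp)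
  refine ⟨max C K, le_trans K.coe_nonneg (le_max_right _ _), fun z => ?_, fun u v => ?_⟩
  · exact le_trans (by simpa using hC z) (le_max_left _ _)
  · refine le_trans ?_ (mul_le_mul_of_nonneg_right (le_max_right _ _) (norm_nonneg _))
    simpa [dist_eq_norm] using hK.dist_le_mul u v

/-- The linearised blob coordinates. -/
noncomputable def lin (a m : ℝ) : P2 →L[ℝ] P2 :=
  (a • ContinuousLinearMap.fst ℝ ℝ ℝ + m • ContinuousLinearMap.snd ℝ ℝ ℝ).prod
    (ContinuousLinearMap.snd ℝ ℝ ℝ)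

lemma lin_apply (a m : ℝ) (z : P2) : lin a m z = (a * z.1 + m * z.2, z.2) := by simp [lin]

lemma lin_small {a m : ℝ} (ha : |a - 1| ≤ 1 / 10) (hm : |m| ≤ 1 / 10) {z : P2} (h : ‖lin a m z‖ ≤ 1) :
    |z.1| ≤ 2 ∧ |z.2| ≤ 1 := by
  rw [lin_apply, Prod.norm_def, max_le_iff, Real.norm_eq_abs, Real.norm_eq_abs] at h
  refine ⟨?_, h.2⟩
  have h1 : |a * z.1| ≤ 1 + 1 / 10 := by
    have := abs_sub (a * z.1 + m * z.2) (m * z.2)
    simp only [add_sub_cancel_right] at this
    have : |m * z.2| ≤ 1 / 10 := by rw [abs_mul]; nlinarith [abs_nonneg m, abs_nonneg z.2, h.2]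
    linarith [h.1]
  rw [abs_mul] at h1
  have : 9 / 10 ≤ |a| := by
    have := abs_le.1 ha; rw [abs_of_pos (by linarith)]; linarith
  nlinarith [abs_nonneg z.1]

/-- Second moment of the blob against the profile at a wide phase. -/
theorem blob_moment (J : ℕ) {r : ℝ} (hr : ∀ t, |t| ≤ r → 1 / 2 ≤ th J (J + 2) t)
    {a m om Λ : ℝ} (ha : |a - 1| ≤ 1 / 10) (hm : |m| ≤ 1 / 10) (hom : 1 / 2 ≤ om)
    (hΛ : 0 < Λ) (hΛr : 2 * om + 1 ≤ r * Λ) :
    1 / (100 * Λ ^ 2) ≤ |∫ z, blobK (lin a m z) * ph J J om Λ z| := by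
  set T := lin a m
  have ha' := abs_le.1 ha
  have ha0 : a ≠ 0 := by intro h; rw [h] at ha'; linarith
  set v1 : P2 := (a⁻¹, 0) with hv1
  set v2 : P2 := (-m / a, 1) with hv2
  have T1 : T v1 = (1, 0) := by simp [T, lin_apply, hv1, ha0]
  have T2 : T v2 = (0, 1) := by
    simp only [T, lin_apply, hv2]
    rw [mul_one, mul_div_cancel₀ _ ha0, neg_add_cancel]
  have hb := Final.smooth_blob
  have supp : ∀ g : P2 → ℝ, (∀ u, 1 < ‖u‖ → g u = 0) → HasCompactSupport (fun z => g (T z)) := by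
    intro g hg
    refine HasCompactSupport.intro (K := Set.Icc (-2) 2 ×ˢ Set.Icc (-1) 1)
      (isCompact_Icc.prod isCompact_Icc) fun z hz => hg _ ?_
    by_contra hle
    obtain ⟨h1, h2⟩ := lin_small ha hm (not_lt.1 hle)
    exact hz ⟨abs_le.1 h1, abs_le.1 h2⟩
  have z0 : ∀ u : P2, 1 < ‖u‖ → blob u = 0 := fun u hu => Final.blob_zero hu.le
  have z1 : ∀ v : P2, ∀ u : P2, 1 < ‖u‖ → fderiv ℝ blob u v = 0 := by
    intro v u hu
    have : blob =ᶠ[nhds u] fun _ => (0 : ℝ) := by
      filter_upwards [(isOpen_lt continuous_const continuous_norm).mem_nhds hu] with y hy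
      exact z0 y hy
    rw [this.fderiv_eq]; simp
  have parts : ∀ (g : P2 → ℝ) (v : P2) (k : ℕ), ContDiff ℝ ∞ g → (∀ u, 1 < ‖u‖ → g u = 0) →
      ∫ z, fderiv ℝ g (T z) (T v) * ph J k om Λ z
        = -(phase om Λ v) * ∫ z, g (T z) * ph J (k + 1) om Λ z := by
    intro g v k hg hg0
    have hgT : ContDiff ℝ ∞ (fun z => g (T z)) := hg.comp T.contDiff
    have hF : ContDiff ℝ ∞ (fun z => g (T z) * ph J k om Λ z) := hgT.mul (smooth_ph J k om Λ)
    have hcs : HasCompactSupport (fun z => g (T z) * ph J k om Λ z) := (supp g hg0).mul_right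
    have h0 := int_fderiv (hF.of_le (by simp)) hcs v
    have e : ∀ z, fderiv ℝ (fun z => g (T z) * ph J k om Λ z) z v
        = fderiv ℝ g (T z) (T v) * ph J k om Λ z + phase om Λ v * (g (T z) * ph J (k + 1) om Λ z) := by
      intro z
      rw [fderiv_fun_mul (hgT.differentiable (by simp) z) ((smooth_ph J k om Λ).differentiable (by simp) z)]
      have e2 : fderiv ℝ (fun z => g (T z)) z = (fderiv ℝ g (T z)).comp T := by
        rw [show (fun z => g (T z)) = g ∘ T from rfl,
          fderiv_comp z (hg.differentiable (by simp) _) T.differentiableAt, T.fderiv]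
      simp [e2, fderiv_ph]; ring
    simp only [e] at h0
    have hz' : ∀ u, 1 < ‖u‖ → fderiv ℝ g u (T v) = 0 := by
      intro u hu
      have : g =ᶠ[nhds u] fun _ => (0 : ℝ) := by
        filter_upwards [(isOpen_lt continuous_const continuous_norm).mem_nhds hu] with y hy
        exact hg0 y hy
      rw [this.fderiv_eq]; simp
    have j1 : Integrable fun z => fderiv ℝ g (T z) (T v) * ph J k om Λ z :=
      ((((hg.continuous_fderiv (by simp)).comp T.continuous).clm_apply continuous_const).mul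
        (smooth_ph J k om Λ).continuous).integrable_of_hasCompactSupport ((supp _ hz').mul_right)
    have j2 : Integrable fun z => g (T z) * ph J (k + 1) om Λ z :=
      (hgT.continuous.mul (smooth_ph J (k + 1) om Λ).continuous).integrable_of_hasCompactSupport
        ((supp g hg0).mul_right)
    rw [integral_add j1 (j2.const_mul _), integral_const_mul] at h0
    linarith
  set I := ∫ z, blob (T z) * ph J (J + 2) om Λ z with hI
  have e11 : ∫ z, dp (dp blob) (T z) * ph J J om Λ z = phase om Λ v1 ^ 2 * I := by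
    have a1 := parts (dp blob) v1 J (smooth_dp hb) (fun u hu => z1 _ u hu)
    have a2 := parts blob v1 (J + 1) hb z0
    rw [T1] at a1 a2
    simp only [dp] at a1 a2 ⊢
    rw [a1, a2, hI]; ring
  have e22 : ∫ z, dy (dy blob) (T z) * ph J J om Λ z = phase om Λ v2 ^ 2 * I := by
    have a1 := parts (dy blob) v2 J (smooth_dy hb) (fun u hu => z1 _ u hu)
    have a2 := parts blob v2 (J + 1) hb z0
    rw [T2] at a1 a2
    simp only [dy] at a1 a2 ⊢
    rw [a1, a2, hI]; ring
  have hsupp2 : ∀ (f : P2 → ℝ) (v : P2), ContDiff ℝ ∞ f → (∀ u, 1 < ‖u‖ → f u = 0) →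
      Integrable fun z => fderiv ℝ f (T z) v * ph J J om Λ z := by
    intro f v hf hf0
    refine ((((hf.continuous_fderiv (by simp)).comp T.continuous).clm_apply continuous_const).mul
      (smooth_ph J J om Λ).continuous).integrable_of_hasCompactSupport ((supp (fun u => fderiv ℝ f u v) ?_).mul_right)
    intro u hu
    have : f =ᶠ[nhds u] fun _ => (0 : ℝ) := by
      filter_upwards [(isOpen_lt continuous_const continuous_norm).mem_nhds hu] with y hy
      exact hf0 y hy
    rw [this.fderiv_eq]; simp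
  have etot : ∫ z, blobK (T z) * ph J J om Λ z = -(1 / 2) * ((phase om Λ v1 ^ 2 + phase om Λ v2 ^ 2) * I) := by
    have e : ∀ z, blobK (T z) * ph J J om Λ z
        = -(1 / 2) * (dp (dp blob) (T z) * ph J J om Λ z + dy (dy blob) (T z) * ph J J om Λ z) := by
      intro z; simp only [blobK]; ring
    simp only [e]
    have k1 : Integrable fun z => dp (dp blob) (T z) * ph J J om Λ z :=
      hsupp2 (dp blob) (1, 0) (smooth_dp hb) fun u hu => z1 _ u hu
    have k2 : Integrable fun z => dy (dy blob) (T z) * ph J J om Λ z :=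
      hsupp2 (dy blob) (0, 1) (smooth_dy hb) fun u hu => z1 _ u hu
    rw [integral_const_mul, integral_add k1 k2, e11, e22, add_mul]
  -- the moment is bounded below
  have hlow : 1 / 8 ≤ I := by
    set S : Set P2 := Set.Icc (-1 / 4) (1 / 4) ×ˢ Set.Icc (-1 / 4) (1 / 4) with hS
    have hi : Integrable fun z => blob (T z) * ph J (J + 2) om Λ z :=
      ((hb.continuous.comp T.continuous).mul (smooth_ph J (J + 2) om Λ).continuous)
        |>.integrable_of_hasCompactSupport ((supp blob z0).mul_right)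
    have hph : ∀ z, blob (T z) ≠ 0 → 1 / 2 ≤ ph J (J + 2) om Λ z := by
      intro z hz
      have hle : ‖T z‖ ≤ 1 := not_lt.1 fun h => hz (z0 _ h)
      obtain ⟨h1, h2⟩ := lin_small ha hm hle
      refine hr _ ?_
      rw [phase_apply, abs_div, abs_of_pos hΛ, div_le_iff₀ hΛ]
      refine (abs_add_le _ _).trans ?_
      rw [abs_mul, abs_of_pos (by linarith : 0 < om)]
      nlinarith
    have hnn : ∀ z, 0 ≤ blob (T z) * ph J (J + 2) om Λ z := by
      intro z
      by_cases hz : blob (T z) = 0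
      · simp [hz]
      · exact mul_nonneg bump1.nonneg (le_trans (by norm_num) (hph z hz))
    have hone : ∀ z ∈ S, blob (T z) = 1 := by
      rintro z ⟨h1, h2⟩
      simp only [Set.mem_Icc] at h1 h2
      apply bump1.one_of_mem_closedBall
      rw [Metric.mem_closedBall, Real.dist_eq, sub_zero, abs_of_nonneg (Final.rsq_nonneg _)]
      show rsq (T z) ≤ 1 / 2
      have hm' := abs_le.1 hm
      simp only [T, lin_apply, rsq]
      have u1 : (a * z.1 + m * z.2) ^ 2 ≤ (3 / 10) ^ 2 := by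
        apply sq_le_sq'
        · nlinarith
        · nlinarith
      nlinarith
    have hSc : IsCompact S := isCompact_Icc.prod isCompact_Icc
    have h3 : ∫ z in S, (1 / 2 : ℝ) ≤ ∫ z in S, blob (T z) * ph J (J + 2) om Λ z := by
      refine setIntegral_mono_on (continuous_const.continuousOn.integrableOn_compact hSc)
        hi.integrableOn hSc.measurableSet fun z hz => ?_
      rw [hone z hz, one_mul]
      exact hph z (by rw [hone z hz]; norm_num)
    have h4 := setIntegral_le_integral (s := S) hi (Filter.Eventually.of_forall hnn)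
    have hvol : volume.real S = 1 / 4 := by
      rw [hS, Measure.volume_eq_prod, measureReal_prod_prod, Real.volume_real_Icc_of_le (by norm_num)]
      norm_num
    rw [setIntegral_const, hvol, smul_eq_mul] at h3
    linarith
  have hv : (4 / 10) ^ 2 / Λ ^ 2 ≤ phase om Λ v1 ^ 2 := by
    rw [phase_apply, hv1]
    simp only [zero_add]
    rw [div_pow (om * a⁻¹) Λ 2]
    refine div_le_div_of_nonneg_right ?_ (sq_nonneg Λ)
    have : (4 / 10 : ℝ) ≤ om * a⁻¹ := by
      rw [← div_eq_mul_inv, le_div_iff₀ (by linarith)]; nlinarith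
    nlinarith
  rw [etot, abs_mul, abs_mul, abs_of_nonneg (add_nonneg (sq_nonneg (phase om Λ v1)) (sq_nonneg (phase om Λ v2))),
    abs_of_nonneg (by linarith : (0 : ℝ) ≤ I)]
  have h5 : (4 / 10) ^ 2 / Λ ^ 2 * (1 / 8) ≤ (phase om Λ v1 ^ 2 + phase om Λ v2 ^ 2) * I :=
    mul_le_mul (by nlinarith [sq_nonneg (phase om Λ v2)]) hlow (by norm_num) (by positivity)
  have e6 : (1 : ℝ) / (100 * Λ ^ 2) = 1 / 2 * ((4 / 10) ^ 2 / Λ ^ 2 * (1 / 8)) := by
    field_simp; ring
  rw [e6, show |(-(1 / 2) : ℝ)| = 1 / 2 by norm_num]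
  linarith

end blob

end Vale.Agent.P229.Detect
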